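import Claimed.Agent.R256.Inc.CoreA

/-!
# Row 256, unit INC, dictionary finite laws -> `ExTest` / `KfFrost`, leaf A2.       (architect helper157)
Plan: header of `Inc/Core.lean`.  Statements FROZEN (ask helper157); provers edit only bodies and may add auxiliary lemmas with the prefix `ic_aux_`.
-/

set_option autoImplicit false

namespace Claimed.Agent.R256

open Claimed.Agent.R255 Claimed.Agent.R255.FLaw Claimed.Agent.RW
open Classical

variable {Ω : Type} [Fintype Ω] {α β γ δ : Type}

/-! ## A2. surprisals of nested names -/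

/-- a finer name has a larger surprisal -/
theorem ic_sur_mono (P : FLaw Ω) (X : Ω → α) (X' : Ω → β) (D : Ω → δ) (h : ∀ ω ω', X' ω = X' ω' → X ω = X ω') {ω : Ω}
    (hω : P.p ω ≠ 0) : P.surC X D ω ≤ P.surC X' D ω := by
  rw [ent_surC_eq_sub P _ _ hω, ent_surC_eq_sub P _ _ hω]
  have h1 : P.fib (pair X' D) ω ≤ P.fib (pair X D) ω := by
    refine ent_fib_mono P _ _ ω fun ω' _ h' => ?_
    simp only [FLaw.pair, Prod.mk.injEq] at h' ⊢
    exact ⟨h _ _ h'.1, h'.2⟩
  have h2 := Real.log_le_log (ent_fib_pos P (pair X' D) hω) h1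
  linarith

/-- the mass of a cell in terms of the surprisal (no side data) -/
theorem ic_fib_of_sur (P : FLaw Ω) (X : Ω → α) {ω : Ω} (hω : P.p ω ≠ 0) :
    P.fib X ω = Real.exp (- P.surC X (fun _ => ()) ω) := by
  rw [ent_exp_neg_surC P _ _ hω]
  have h1 : P.fib (fun _ => ()) ω = 1 := by
    unfold FLaw.fib
    simpa using ent_pr_true P
  have h2 : P.fib (pair X (fun _ => ())) ω = P.fib X ω := by
    refine ent_pr_congr P fun ω' _ => ?_
    simp only [FLaw.pair, Prod.mk.injEq, and_true]
  rw [h1, h2, div_one]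

/-- goodness is a function of the finest cell -/
theorem ic_good_congr (P : FLaw Ω) (X : ℕ → Ω → α) (D : Ω → δ) (e η : ℝ) (n : ℕ)
    (hX : ∀ k ≤ n, ∀ ω ω', X n ω = X n ω' → X k ω = X k ω') {ω ω' : Ω} (h : X n ω = X n ω') (hD : D ω = D ω') :
    IcGood P X D e η n ω ↔ IcGood P X D e η n ω' := by
  have key : ∀ k ≤ n, P.surC (X k) D ω = P.surC (X k) D ω' := by
    intro k hk
    unfold FLaw.surC
    have h1 : pair (X k) D ω = pair (X k) D ω' := by
      simp only [FLaw.pair, Prod.mk.injEq]
      exact ⟨hX k hk _ _ h, hD⟩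
    rw [ent_fib_congr P _ h1, ent_fib_congr P D hD]
  unfold IcGood
  constructor
  · intro H k hk
    rw [← key k hk]; exact H k hk
  · intro H k hk
    rw [key k hk]; exact H k hk

end Claimed.Agent.R256
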