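import Claimed.Agent.R256.Inc.Defs
import Claimed.Agent.R255.Ent.Prod

/-!
# Row 256, unit LIK: Lemma `low:likelihood` (03 l.1170, eq. (LP)) for finite laws.       (architect helper157)

Four elementary facts on conditional surprisals `P.surC` (natural logarithm).  Used everywhere in secs. 3, 4, 6, 8.
(i) `ic_lp`: more side information lowers the score, up to `t`, off an event of mass `exp (-t)`.
(ii) `ic_lp_mi`: if the side information has small conditional mutual information it cannot lower the score by `t` (Markov; `ent_zero_info`).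
(iii) `ic_list`: if on `E` the name `U` lies in a list of `≤ L` values indexed by `(V, D)`, then `sur U ≤ sur V + log L + t`.
(iv) `ic_restr`: restriction to an event `E` changes a score by `≤ t` off a set of restricted mass `2 exp (-t) / P(E)` (`ent_ret_tail`).
Statements FROZEN (ask helper157); auxiliary lemmas: prefix `ic_aux_`.
-/

set_option autoImplicit false

namespace Claimed.Agent.R256

open Claimed.Agent.R255 Claimed.Agent.R255.FLaw
open Classical

variable {Ω : Type} [Fintype Ω] {α β γ δ : Type}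

/-- (LP).  `P{q(U|D',D) < e^-t p(U|D)} ≤ e^-t`: condition on `(D',D)` and sum over the values of `U`. -/
theorem ic_lp (P : FLaw Ω) (U : Ω → α) (D : Ω → δ) (D' : Ω → β) (t : ℝ) :
    P.pr (fun ω => P.surC U D ω < P.surC U (pair D' D) ω - t) ≤ Real.exp (-t) := by
  have hm := ent_aux_ci_mass P U D' D
  have hmk := ent_markov P (f := fun ω => P.fib (pair U D) ω * P.fib (pair D' D) ω / (P.fib (pair (pair U D') D) ω * P.fib D ω))
    (fun ω _ => div_nonneg (mul_nonneg (ent_fib_nonneg P _ _) (ent_fib_nonneg P _ _))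
      (mul_nonneg (ent_fib_nonneg P _ _) (ent_fib_nonneg P _ _))) (t := Real.exp t) (Real.exp_pos t)
  refine le_trans (ent_pr_mono P fun ω hω hs => ?_) (hmk.trans ?_)
  · have a1 := ent_fib_pos P (pair U D) hω
    have a2 := ent_fib_pos P (pair D' D) hω
    have a3 := ent_fib_pos P (pair (pair U D') D) hω
    have a4 := ent_fib_pos P D hω
    have e : P.fib (pair U (pair D' D)) ω = P.fib (pair (pair U D') D) ω := by
      refine ent_pr_congr P fun ω' _ => ?_
      simp only [FLaw.pair, Prod.mk.injEq]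
      tauto
    rw [ent_surC_eq_sub P _ _ hω, ent_surC_eq_sub P _ _ hω, e] at hs
    rw [← Real.log_le_log_iff (Real.exp_pos t) (div_pos (mul_pos a1 a2) (mul_pos a3 a4)), Real.log_exp,
      Real.log_div (mul_pos a1 a2).ne' (mul_pos a3 a4).ne', Real.log_mul a1.ne' a2.ne', Real.log_mul a3.ne' a4.ne']
    linarith
  · rw [Real.exp_neg, ← one_div]
    exact div_le_div_of_nonneg_right hm (Real.exp_pos t).le

/-- small information: `ent_zero_info` read as `q(U|D',D) ≤ e^t p(U|D)`. -/
theorem ic_lp_mi (P : FLaw Ω) (U : Ω → α) (D : Ω → δ) (D' : Ω → β) {t : ℝ} (ht : 0 < t) :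
    P.pr (fun ω => P.surC U (pair D' D) ω < P.surC U D ω - t) ≤ (P.miC U D' D + Real.exp (-1)) / t := by
  have h := ent_zero_info P U D' D ht
  have h3 := ent_pr_not P (fun ω => P.fib (pair (pair U D') D) ω * P.fib D ω
    ≤ Real.exp t * (P.fib (pair U D) ω * P.fib (pair D' D) ω))
  refine le_trans (ent_pr_mono P fun ω hω hs => ?_) (le_trans (le_of_eq h3) (by linarith))
  have a1 := ent_fib_pos P (pair U D) hω
  have a2 := ent_fib_pos P (pair D' D) hω
  have a3 := ent_fib_pos P (pair (pair U D') D) hω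
  have a4 := ent_fib_pos P D hω
  have e : P.fib (pair U (pair D' D)) ω = P.fib (pair (pair U D') D) ω := by
    refine ent_pr_congr P fun ω' _ => ?_
    simp only [FLaw.pair, Prod.mk.injEq]
    tauto
  rw [ent_surC_eq_sub P _ _ hω, ent_surC_eq_sub P _ _ hω, e] at hs
  rw [not_le, ← Real.log_lt_log_iff (mul_pos (Real.exp_pos t) (mul_pos a1 a2)) (mul_pos a3 a4),
    Real.log_mul (Real.exp_pos t).ne' (mul_pos a1 a2).ne', Real.log_exp, Real.log_mul a1.ne' a2.ne', Real.log_mul a3.ne' a4.ne']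
  linarith

/-- the tail bound for a name with few values on an event (= `ic_tail`) -/
theorem ic_aux_tail (P : FLaw Ω) (E : Ω → Prop) (U : Ω → α) (D : Ω → δ) {L : ℝ} (hL : 0 < L)
    (h : P.NVal E U D L) (t : ℝ) :
    P.pr (fun ω => E ω ∧ Real.log L + t < P.surC U D ω) ≤ Real.exp (-t) := by
  set Bad : Ω → Prop := fun ω => E ω ∧ Real.log L + t < P.surC U D ω with hBad
  rw [ent_pr_tower P D Bad]
  have key : ∀ ω₀, P.p ω₀ ≠ 0 → (P.cfib D ω₀).pr Bad ≤ Real.exp (-t) := by
    intro ω₀ hω₀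
    have hpos := ent_fib_pos P D hω₀
    rw [ent_cfib_pr P D hpos, div_le_iff₀ hpos]
    obtain ⟨S, hScard, hS⟩ := h ω₀
    rw [ent_pr_sum_values P _ U S (fun ω hω hb => hS ω hω hb.1.1 hb.2)]
    have hterm : ∀ u ∈ S, P.pr (fun ω => (Bad ω ∧ D ω = D ω₀) ∧ U ω = u) ≤ Real.exp (-t) / L * P.fib D ω₀ := by
      intro u _
      by_cases hp : 0 < P.pr (fun ω => (Bad ω ∧ D ω = D ω₀) ∧ U ω = u)
      · obtain ⟨ω, ⟨⟨hb, hd⟩, hu⟩, hω⟩ := (ent_pr_pos_iff P _).1 hp
        have h1 : P.pr (fun ω' => (Bad ω' ∧ D ω' = D ω₀) ∧ U ω' = u) ≤ P.fib (pair U D) ω := by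
          refine ent_pr_mono P fun ω' _ hh => ?_
          show pair U D ω' = pair U D ω
          simp only [FLaw.pair, Prod.mk.injEq]
          exact ⟨hh.2.trans hu.symm, hh.1.2.trans hd.symm⟩
        have h2 := ent_exp_neg_surC P U D hω
        have h3 : P.fib (pair U D) ω = Real.exp (- P.surC U D ω) * P.fib D ω₀ := by
          rw [h2, ← ent_fib_congr P D hd, div_mul_cancel₀ _ (ent_fib_pos P D hω).ne']
        have h4 : Real.exp (- P.surC U D ω) ≤ Real.exp (-t) / L := by
          rw [le_div_iff₀ hL]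
          calc Real.exp (- P.surC U D ω) * L = Real.exp (- P.surC U D ω) * Real.exp (Real.log L) := by rw [Real.exp_log hL]
            _ = Real.exp (- P.surC U D ω + Real.log L) := (Real.exp_add _ _).symm
            _ ≤ Real.exp (-t) := Real.exp_le_exp.2 (by linarith [hb.2])
        rw [h3] at h1
        exact h1.trans (mul_le_mul_of_nonneg_right h4 hpos.le)
      · have h0 : P.pr (fun ω => (Bad ω ∧ D ω = D ω₀) ∧ U ω = u) = 0 := le_antisymm (not_lt.1 hp) (ent_pr_nonneg P _)
        rw [h0]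
        positivity
    refine (Finset.sum_le_sum hterm).trans ?_
    rw [Finset.sum_const, nsmul_eq_mul]
    have e1 : (S.card : ℝ) * (Real.exp (-t) / L * P.fib D ω₀) = (S.card / L) * (Real.exp (-t) * P.fib D ω₀) := by ring
    rw [e1]
    have h5 : (S.card : ℝ) / L ≤ 1 := (div_le_one hL).2 hScard
    calc (S.card / L) * (Real.exp (-t) * P.fib D ω₀) ≤ 1 * (Real.exp (-t) * P.fib D ω₀) :=
          mul_le_mul_of_nonneg_right h5 (by positivity)
      _ = _ := one_mul _
  calc P.ev (fun ω => (P.cfib D ω).pr Bad) ≤ P.ev (fun _ => Real.exp (-t)) := ent_ev_mono P key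
    _ = _ := ent_ev_const P _

/-- lists.  `p(U|D) ≥ p(U,V|D) = p(V|D) p(U|V,D)`, and the names of a list of size `L` with `p(u|V,D) < e^-t/L` have total mass `≤ e^-t`. -/
theorem ic_list (P : FLaw Ω) (E : Ω → Prop) (U : Ω → α) (V : Ω → β) (D : Ω → δ) {L : ℝ} (hL : 0 < L)
    (h : P.NVal E U (pair V D) L) (t : ℝ) :
    P.pr (fun ω => E ω ∧ P.surC V D ω + Real.log L + t < P.surC U D ω) ≤ Real.exp (-t) := by
  refine le_trans (ent_pr_mono P fun ω hω hs => ?_) (ic_aux_tail P E U (pair V D) hL h t)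
  refine ⟨hs.1, ?_⟩
  have h1 := ent_surC_swap P U V D hω
  have h2 := ent_surC_nonneg P V (pair U D) hω
  linarith [hs.2]

/-- conditional form of the tail bound for a name with few values (on an event) -/
theorem ic_tail (P : FLaw Ω) (E : Ω → Prop) (U : Ω → α) (D : Ω → δ) {L : ℝ} (hL : 0 < L)
    (h : P.NVal E U D L) (t : ℝ) :
    P.pr (fun ω => E ω ∧ Real.log L + t < P.surC U D ω) ≤ Real.exp (-t) := by
  exact ic_aux_tail P E U D hL h t

/-- restriction.  `P(U|D,E) = P(U|D) P(E|U,D) / P(E|D)`. -/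
theorem ic_restr (P : FLaw Ω) (E : Ω → Prop) (hE : 0 < P.pr E) (U : Ω → α) (D : Ω → δ) (t : ℝ) :
    (P.cnd E).pr (fun ω => t < |(P.cnd E).surC U D ω - P.surC U D ω|) ≤ 2 * Real.exp (-t) / P.pr E := by
  have h1 := ent_ret_tail P E hE D (t := Real.exp (-t)) (Real.exp_pos _).le
  have h2 := ent_ret_tail P E hE (pair U D) (t := Real.exp (-t)) (Real.exp_pos _).le
  refine le_trans (le_trans (ent_pr_mono _ fun ω hω hs => ?_) (ent_pr_or_le _ _ _))
    (le_trans (add_le_add h1 h2) (le_of_eq (by ring)))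
  obtain ⟨hEω, hp⟩ := (ent_cnd_supp P E hE).1 hω
  have r1 := ent_ret_pos P E D hEω hp
  have r2 := ent_ret_pos P E (pair U D) hEω hp
  have r1' := ent_ret_le_one P E D ω
  have r2' := ent_ret_le_one P E (pair U D) ω
  have f1 := ent_fib_pos P D hp
  have f2 := ent_fib_pos P (pair U D) hp
  have e : (P.cnd E).surC U D ω - P.surC U D ω = Real.log (P.ret E D ω) - Real.log (P.ret E (pair U D) ω) := by
    rw [ent_surC_eq_sub _ _ _ hω, ent_surC_eq_sub _ _ _ hp, ent_ret_fib P E hE, ent_ret_fib P E hE,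
      Real.log_div (mul_pos f1 r1).ne' hE.ne', Real.log_div (mul_pos f2 r2).ne' hE.ne', Real.log_mul f1.ne' r1.ne',
      Real.log_mul f2.ne' r2.ne']
    ring
  rw [e] at hs
  by_contra hcon
  push Not at hcon
  obtain ⟨c1, c2⟩ := hcon
  have l1 : -t ≤ Real.log (P.ret E D ω) := by
    rw [← Real.log_exp (-t)]; exact Real.log_le_log (Real.exp_pos _) c1
  have l2 : -t ≤ Real.log (P.ret E (pair U D) ω) := by
    rw [← Real.log_exp (-t)]; exact Real.log_le_log (Real.exp_pos _) c2
  have l1' : Real.log (P.ret E D ω) ≤ 0 := Real.log_nonpos r1.le r1'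
  have l2' : Real.log (P.ret E (pair U D) ω) ≤ 0 := Real.log_nonpos r2.le r2'
  have h5 : |Real.log (P.ret E D ω) - Real.log (P.ret E (pair U D) ω)| ≤ t := abs_le.2 ⟨by linarith, by linarith⟩
  linarith

/-- restriction and conditional mutual information (04 `names:score-law-change`): `I_E ≤ (I + log 2) / P(E)`. -/
theorem ic_restr_mi (P : FLaw Ω) (E : Ω → Prop) (hE : 0 < P.pr E) (U : Ω → α) (V : Ω → β) (D : Ω → δ) :
    (P.cnd E).miC U V D ≤ (P.miC U V D + Real.log 2) / P.pr E := by
  rw [le_div_iff₀ hE]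
  have h1 := ent_tag_miC P U V D E
  have h2 := ent_prop_le P E
  have h3 := ent_miC_pair_eq_avg P U V D E
  have h4 : (P.cnd E).miC U V D * P.pr E ≤ P.ev (fun ω => (P.cfib E ω).miC U V D) := by
    rw [ent_pr_eq_ev, ← ent_ev_mul_left]
    refine ent_ev_mono P fun ω hω => ?_
    by_cases hω' : E ω
    · have e : P.cfib E ω = P.cnd E := ent_cnd_congr P fun ω' _ => by simp [hω']
      rw [e]
      simp [hω']
    · simp only [hω', if_false, mul_zero]
      exact ent_miC_nonneg _ _ _ _
  linarith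

end Claimed.Agent.R256
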