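import Claimed.Agent.R256.Inc.Core
import Claimed.Agent.R256.Inc.Lik

/-!
# Row 256, unit INC+ : the SUPERCRITICAL planar incidence bound (03 `low:conditional-incidence`, case `a + g > 1`).      (architect helper157)

Replaces Ren-Wang in sec. 3 (`low:classical-zero-cost`: `(a,g) = (d, m/2)`, `a+g = 1+Γ`) and in the classical round case of sec. 8.
NEW ROUTE (no new analysis): in all applications the slope is almost INDEPENDENT of the point (stationarity: `I(A;C'|C) = o(log)`), so the bound is an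
iteration of the Falconer-range projection theorem `ic_coreF` (= `RW.ex_F`, on main):
   point Frostman `x` at all depths  ⟹  intercept given slope `≥ min(1, x+g-1)`  ⟹  point `≥ a + min(1, x+g-1)` at all depths     (chain rule + point on its line `≥ a`).
Start `x₀ = a` ((LP)); each step gains `τ - α`, `τ = a+g-1 > 0`; after `≤ 2/τ + 1` steps `x = 1 + a - α`.

Scale: `n = N * b` bits, grid of levels `j * b`, `j ≤ N`.  Exponent tolerances `e` and probability tolerances `p` are SEPARATE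
(the union bound over the grid costs a factor `N+1` in `p`, the mesh costs `2/N` in `e`: with one parameter the recursion would be circular).

Step (`ic_incp_step`), level `k = j b`, `y = a + min 1 (x+g-1) - α ≤ 2`, `z = e'/2`:
 * `y k ≤ e' N b`: the event is empty (`ent_surC_nonneg`).  Otherwise `k ≥ z N b`.
 * `η, n₁` from `ic_coreF x g (α/2) A`;  `N₀ ≥ 4/(η z)`, `e ≤ min (η z / 2) (e'/8)`: `ic_fro_good` gives `IcGood` at level `k` for `icQ`, `icS` off mass `2 (N+1) p`.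
 * `ic_coreF` with the tag `Tg = icS t k`: `surC U (S,D) ≥ (min - α/2) k log 2` off mass `(miC + log 2)/(η k log 2)`; `miC` at level `k` `≤` `miC` at level `N b` (`ent_miC_mono` twice + `ent_miC_comm`).
 * `ic_incp_chain` with `t = (e'/8) N b log 2`.
-/

set_option autoImplicit false

namespace Claimed.Agent.R256

open Claimed.Agent.R255 Claimed.Agent.R255.FLaw
open Classical

variable {Ω : Type} [Fintype Ω] {α δ : Type}

/-- prefix scores `≥ x · level - e · n` on the grid, off mass `p` -/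
def IcFro (P : FLaw Ω) (X : ℕ → Ω → α) (D : Ω → δ) (x e p : ℝ) (N b : ℕ) : Prop :=
  ∀ j ≤ N, P.pr (fun ω => P.surC (X (j * b)) D ω < (x * ((j * b : ℕ) : ℝ) - e * ((N * b : ℕ) : ℝ)) * Real.log 2) ≤ p

/-- the point on its line: scores `≥ a · level - e · n` given the line at the same level -/
def IcLin (P : FLaw Ω) (q : Ω → ℝ × ℝ) (t : Ω → ℝ) (D : Ω → δ) (a e p : ℝ) (N b : ℕ) : Prop :=
  ∀ j ≤ N, P.pr (fun ω => P.surC (icQ q (j * b)) (pair (icU q t (j * b)) (pair (icS t (j * b)) D)) ω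
      < (a * ((j * b : ℕ) : ℝ) - e * ((N * b : ℕ) : ℝ)) * Real.log 2) ≤ p

theorem ic_fro_mono {P : FLaw Ω} {X : ℕ → Ω → α} {D : Ω → δ} {x e p e' p' : ℝ} {N b : ℕ} (he : e ≤ e') (hp : p ≤ p')
    (h : IcFro P X D x e p N b) : IcFro P X D x e' p' N b := by
  intro j hj
  refine le_trans (ent_pr_mono P fun ω _ hω => lt_of_lt_of_le hω ?_) ((h j hj).trans hp)
  refine mul_le_mul_of_nonneg_right ?_ (Real.log_pos one_lt_two).le
  have : e * ((N * b : ℕ) : ℝ) ≤ e' * ((N * b : ℕ) : ℝ) := mul_le_mul_of_nonneg_right he (Nat.cast_nonneg _)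
  linarith

theorem ic_lin_mono {P : FLaw Ω} {q : Ω → ℝ × ℝ} {t : Ω → ℝ} {D : Ω → δ} {a e p e' p' : ℝ} {N b : ℕ} (he : e ≤ e')
    (hp : p ≤ p') (h : IcLin P q t D a e p N b) : IcLin P q t D a e' p' N b := by
  intro j hj
  refine le_trans (ent_pr_mono P fun ω _ hω => lt_of_lt_of_le hω ?_) ((h j hj).trans hp)
  refine mul_le_mul_of_nonneg_right ?_ (Real.log_pos one_lt_two).le
  have : e * ((N * b : ℕ) : ℝ) ≤ e' * ((N * b : ℕ) : ℝ) := mul_le_mul_of_nonneg_right he (Nat.cast_nonneg _)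
  linarith

/-- P1. grid scores ⟹ Frostman points at all levels `≤ j b` (interpolation by `ic_sur_mono`, union bound over the grid) -/
theorem ic_fro_good (P : FLaw Ω) (X : ℕ → Ω → α) (D : Ω → δ) (x e p η : ℝ) (N b j : ℕ)
    (hX : ∀ k n, k ≤ n → ∀ ω ω', X n ω = X n ω' → X k ω = X k ω') (hx : 0 ≤ x) (hj : j ≤ N)
    (hη : x * b + e * ((N * b : ℕ) : ℝ) ≤ η * ((j * b : ℕ) : ℝ)) (h : IcFro P X D x e p N b) :
    P.pr (fun ω => ¬ IcGood P X D x η (j * b) ω) ≤ (N + 1) * p := by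
  have hl2 : 0 < Real.log 2 := Real.log_pos one_lt_two
  have h1 : P.pr (fun ω => ¬ IcGood P X D x η (j * b) ω)
      ≤ P.pr (fun ω => ∃ i ∈ Finset.range (N + 1),
          P.surC (X (i * b)) D ω < (x * ((i * b : ℕ) : ℝ) - e * ((N * b : ℕ) : ℝ)) * Real.log 2) := by
    refine ent_pr_mono P fun ω hω hbad => ?_
    by_contra hcon
    push Not at hcon
    refine hbad fun k hk => ?_
    -- the grid level below `k`
    have hkb : k / b * b ≤ k := Nat.div_mul_le_self k b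
    have hkb' : k ≤ k / b * b + b := by
      rcases Nat.eq_zero_or_pos b with hb | hb
      · subst hb; simpa using hk
      · have h2 := Nat.div_add_mod k b
        have h3 := Nat.mod_lt k hb
        rw [mul_comm] at h2
        omega
    have hjN : k / b ≤ N := by
      rcases Nat.eq_zero_or_pos b with hb | hb
      · subst hb; simp
      · exact (Nat.div_le_of_le_mul (by rw [mul_comm]; exact hk)).trans hj
    have h4 := hcon (k / b) (Finset.mem_range.2 (Nat.lt_succ_of_le hjN))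
    have h5 := ic_sur_mono P (X (k / b * b)) (X k) D (hX _ _ hkb) hω
    refine le_trans ?_ (h4.trans h5)
    refine mul_le_mul_of_nonneg_right ?_ hl2.le
    have h6 : (k : ℝ) ≤ ((k / b * b : ℕ) : ℝ) + b := by exact_mod_cast hkb'
    have h7 : x * (k : ℝ) ≤ x * (((k / b * b : ℕ) : ℝ) + b) := mul_le_mul_of_nonneg_left h6 hx
    linarith
  refine h1.trans ((ent_pr_exists_le P _ _).trans ?_)
  refine (Finset.sum_le_sum fun i hi => h i (Nat.lt_succ_iff.1 (Finset.mem_range.1 hi))).trans ?_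
  simp

/-- P2. start of the iteration: (LP) -/
theorem ic_incp_base (P : FLaw Ω) (q : Ω → ℝ × ℝ) (t : Ω → ℝ) (D : Ω → δ) (a e p e₁ : ℝ) (N b : ℕ)
    (h : IcLin P q t D a e p N b) :
    IcFro P (icQ q) D a (e + e₁) (p + Real.exp (-(e₁ * ((N * b : ℕ) : ℝ) * Real.log 2))) N b := by
  intro j hj
  have h1 := h j hj
  have h2 := ic_lp P (icQ q (j * b)) D (pair (icU q t (j * b)) (icS t (j * b))) (e₁ * ((N * b : ℕ) : ℝ) * Real.log 2)
  have e0 : ∀ ω, P.surC (icQ q (j * b)) (pair (pair (icU q t (j * b)) (icS t (j * b))) D) ω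
      = P.surC (icQ q (j * b)) (pair (icU q t (j * b)) (pair (icS t (j * b)) D)) ω := fun ω =>
    ent_surC_congr P _ _ _ _ ω (fun ω' _ => by simp only [FLaw.pair, Prod.mk.injEq, and_assoc]) (fun ω' _ _ => Iff.rfl)
  refine le_trans (le_trans (ent_pr_mono P fun ω hω hbad => ?_) (ent_pr_or_le P _ _)) (add_le_add h1 h2)
  by_contra hcon
  push Not at hcon
  obtain ⟨c1, c2⟩ := hcon
  rw [e0] at c2
  have e1 : (a * ((j * b : ℕ) : ℝ) - (e + e₁) * ((N * b : ℕ) : ℝ)) * Real.log 2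
      = (a * ((j * b : ℕ) : ℝ) - e * ((N * b : ℕ) : ℝ)) * Real.log 2 - e₁ * ((N * b : ℕ) : ℝ) * Real.log 2 := by ring
  rw [e1] at hbad
  linarith

omit [Fintype Ω] in
/-- two configurations in the same cells have close intercepts -/
theorem ic_aux_w_dist {q : Ω → ℝ × ℝ} {t : Ω → ℝ} {A : ℝ} (hbd : IcBd A q t) {k : ℕ} {ω ω' : Ω}
    (hQ : icQ q k ω = icQ q k ω') (hS : icS t k ω = icS t k ω') :
    |icW q t ω - icW q t ω'| ≤ (1 + 2 * A) / 2 ^ k := by
  have h1 : |(q ω).1 - (q ω').1| ≤ 1 / 2 ^ k := ic_cell_dist (congrArg Prod.fst hQ)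
  have h2 : |(q ω).2 - (q ω').2| ≤ 1 / 2 ^ k := ic_cell_dist (congrArg Prod.snd hQ)
  have h3 : |t ω - t ω'| ≤ 1 / 2 ^ k := ic_cell_dist hS
  have e : icW q t ω - icW q t ω' = ((q ω).2 - (q ω').2) - t ω * ((q ω).1 - (q ω').1) - (q ω').1 * (t ω - t ω') := by
    unfold icW; ring
  have h4 : |t ω * ((q ω).1 - (q ω').1)| ≤ A * (1 / 2 ^ k) := by
    rw [abs_mul]
    exact mul_le_mul (hbd ω).2.2 h1 (abs_nonneg _) (le_trans (abs_nonneg _) (hbd ω).2.2)
  have h5 : |(q ω').1 * (t ω - t ω')| ≤ A * (1 / 2 ^ k) := by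
    rw [abs_mul]
    exact mul_le_mul (hbd ω').1 h3 (abs_nonneg _) (le_trans (abs_nonneg _) (hbd ω').1)
  have e2 : (1 + 2 * A) / 2 ^ k = 1 / 2 ^ k + A * (1 / 2 ^ k) + A * (1 / 2 ^ k) := by ring
  rw [e, e2]
  obtain ⟨a1, a2⟩ := abs_le.1 h2
  obtain ⟨b1, b2⟩ := abs_le.1 h4
  obtain ⟨c1, c2⟩ := abs_le.1 h5
  exact abs_le.2 ⟨by linarith, by linarith⟩

/-- `(Q_k, S_k)` determines `U_k` up to `2A+3` values -/
theorem ic_aux_nval (P : FLaw Ω) (q : Ω → ℝ × ℝ) (t : Ω → ℝ) (D : Ω → δ) (A : ℝ) (hA : 1 ≤ A) (hbd : IcBd A q t) (k : ℕ) :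
    P.NVal (fun _ => True) (icU q t k) (pair (icQ q k) (pair (icS t k) D)) (2 * A + 3) := by
  intro ω₀
  obtain ⟨ω₁, hω₁, hmin⟩ := Finset.exists_min_image
    (Finset.univ.filter fun ω => pair (icQ q k) (pair (icS t k) D) ω = pair (icQ q k) (pair (icS t k) D) ω₀) (icU q t k)
    ⟨ω₀, by simp⟩
  have hω₁' := (Finset.mem_filter.1 hω₁).2
  refine ⟨Finset.Ico (icU q t k ω₁) (icU q t k ω₁ + ⌈2 + 2 * A⌉), ?_, fun ω _ _ hω => ?_⟩
  · rw [Int.card_Ico, add_sub_cancel_left]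
    have h0 : 0 ≤ ⌈2 + 2 * A⌉ := Int.ceil_nonneg (by linarith)
    have h1 : ((⌈2 + 2 * A⌉.toNat : ℕ) : ℝ) = ((⌈2 + 2 * A⌉ : ℤ) : ℝ) := by
      have := Int.toNat_of_nonneg h0
      exact_mod_cast this
    rw [h1]
    have := Int.ceil_lt_add_one (2 + 2 * A)
    linarith
  · refine Finset.mem_Ico.2 ⟨hmin ω (Finset.mem_filter.2 ⟨Finset.mem_univ _, hω⟩), ?_⟩
    have hc : pair (icQ q k) (pair (icS t k) D) ω = pair (icQ q k) (pair (icS t k) D) ω₁ := hω.trans hω₁'.symm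
    simp only [FLaw.pair, Prod.mk.injEq] at hc
    have hd := ic_aux_w_dist hbd hc.1 hc.2.1
    have hp : (0 : ℝ) < 2 ^ k := by positivity
    rw [le_div_iff₀ hp] at hd
    have hd2 : (icW q t ω - icW q t ω₁) * 2 ^ k ≤ 1 + 2 * A :=
      le_trans (mul_le_mul_of_nonneg_right (le_abs_self _) hp.le) hd
    have f1 : ((icU q t k ω : ℤ) : ℝ) ≤ icW q t ω * 2 ^ k := Int.floor_le _
    have f2 : icW q t ω₁ * 2 ^ k < ((icU q t k ω₁ : ℤ) : ℝ) + 1 := Int.lt_floor_add_one _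
    have f3 : (2 + 2 * A) ≤ ((⌈2 + 2 * A⌉ : ℤ) : ℝ) := Int.le_ceil _
    have f4 : ((icU q t k ω : ℤ) : ℝ) < ((icU q t k ω₁ + ⌈2 + 2 * A⌉ : ℤ) : ℝ) := by
      push_cast
      nlinarith
    exact_mod_cast f4

/-- P3. `sur Q ≥ sur (U | S) + sur (Q | U, S) - log (2A+3) - 2t`:  (LP) for the slope, `ent_surC_swap`, and `(Q_k, S_k)` determines `U_k` up to `2A+3` values (`ic_tail`). -/
theorem ic_incp_chain (P : FLaw Ω) (q : Ω → ℝ × ℝ) (t : Ω → ℝ) (D : Ω → δ) (A : ℝ) (hA : 1 ≤ A) (hbd : IcBd A q t) (k : ℕ)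
    (s : ℝ) :
    P.pr (fun ω => P.surC (icQ q k) D ω < P.surC (icU q t k) (pair (icS t k) D) ω
        + P.surC (icQ q k) (pair (icU q t k) (pair (icS t k) D)) ω - Real.log (2 * A + 3) - 2 * s) ≤ 2 * Real.exp (-s) := by
  have hL : 0 < 2 * A + 3 := by linarith
  have h1 := ic_lp P (icQ q k) D (icS t k) s
  have h2 := ent_surC_tail P (icU q t k) (pair (icQ q k) (pair (icS t k) D)) hL (ic_aux_nval P q t D A hA hbd k) s
  refine le_trans (le_trans (ent_pr_mono P fun ω hω hbad => ?_) (ent_pr_or_le P _ _))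
    (le_trans (add_le_add h1 h2) (by linarith))
  by_contra hcon
  push Not at hcon
  obtain ⟨c1, c2⟩ := hcon
  have h3 := ent_surC_swap P (icQ q k) (icU q t k) (pair (icS t k) D) hω
  linarith

/-- the probabilistic core of one step: union bound over the five bad events -/
theorem ic_aux_step_core {Ω δ : Type} [Fintype Ω] (P : FLaw Ω) (q : Ω → ℝ × ℝ) (t : Ω → ℝ) (D : Ω → δ) (A : ℝ) (hA : 1 ≤ A)
    (hbd : IcBd A q t) (a g x α' e p η s T : ℝ) (N b j : ℕ) (hj : j ≤ N) (hx : 0 ≤ x) (hg : 0 ≤ g) (hη : 0 < η) (hk : 0 < j * b)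
    (hcore : P.pr (fun ω => IcGood P (icQ q) D x η (j * b) ω ∧ IcGood P (icS t) D g η (j * b) ω ∧
          P.surC (icU q t (j * b)) (pair (icS t (j * b)) D) ω < (min 1 (x + g - 1) - α') * ((j * b : ℕ) : ℝ) * Real.log 2)
        ≤ (P.miC (icQ q (j * b)) (icS t (j * b)) D + Real.log 2) / (η * ((j * b : ℕ) : ℝ) * Real.log 2))
    (hlin : IcLin P q t D a e p N b) (hS : IcFro P (icS t) D g e p N b)
    (hmi : P.miC (icQ q (N * b)) (icS t (N * b)) D ≤ p * ((N * b : ℕ) : ℝ) * Real.log 2)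
    (hQ : IcFro P (icQ q) D x e p N b)
    (hηx : x * b + e * ((N * b : ℕ) : ℝ) ≤ η * ((j * b : ℕ) : ℝ))
    (hηg : g * b + e * ((N * b : ℕ) : ℝ) ≤ η * ((j * b : ℕ) : ℝ))
    (hT : T ≤ (min 1 (x + g - 1) - α') * ((j * b : ℕ) : ℝ) * Real.log 2
      + (a * ((j * b : ℕ) : ℝ) - e * ((N * b : ℕ) : ℝ)) * Real.log 2 - Real.log (2 * A + 3) - 2 * s) :
    P.pr (fun ω => P.surC (icQ q (j * b)) D ω < T) ≤
      2 * ((N + 1) * p) + (p * ((N * b : ℕ) : ℝ) * Real.log 2 + Real.log 2) / (η * ((j * b : ℕ) : ℝ) * Real.log 2) + p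
        + 2 * Real.exp (-s) := by
  have hL : 0 < Real.log 2 := Real.log_pos (by norm_num)
  have hk' : (0 : ℝ) < ((j * b : ℕ) : ℝ) := by exact_mod_cast hk
  have hkn : j * b ≤ N * b := Nat.mul_le_mul_right b hj
  have nQ : ∀ k n, k ≤ n → ∀ ω ω', icQ q n ω = icQ q n ω' → icQ q k ω = icQ q k ω' := by
    intro k n hkn ω ω' h
    simp only [icQ, Prod.mk.injEq] at h ⊢
    exact ⟨ic_cell_nest hkn h.1, ic_cell_nest hkn h.2⟩
  have nS : ∀ k n, k ≤ n → ∀ ω ω', icS t n ω = icS t n ω' → icS t k ω = icS t k ω' := by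
    intro k n hkn ω ω' h
    exact ic_cell_nest hkn h
  have b1 := ic_fro_good P (icQ q) D x e p η N b j nQ hx hj hηx hQ
  have b2 := ic_fro_good P (icS t) D g e p η N b j nS hg hj hηg hS
  have b4 := hlin j hj
  have b5 := ic_incp_chain P q t D A hA hbd (j * b) s
  have hmi' : P.miC (icQ q (j * b)) (icS t (j * b)) D ≤ P.miC (icQ q (N * b)) (icS t (N * b)) D := by
    have h1 : P.miC (icQ q (j * b)) (icS t (j * b)) D ≤ P.miC (icQ q (j * b)) (icS t (N * b)) D :=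
      ent_miC_mono P _ _ _ _ fun ω ω' _ _ h _ => nS _ _ hkn ω ω' h
    have h2 : P.miC (icS t (N * b)) (icQ q (j * b)) D ≤ P.miC (icS t (N * b)) (icQ q (N * b)) D :=
      ent_miC_mono P _ _ _ _ fun ω ω' _ _ h _ => nQ _ _ hkn ω ω' h
    rw [ent_miC_comm P (icQ q (j * b)) (icS t (N * b)) D] at h1
    rw [ent_miC_comm P (icQ q (N * b)) (icS t (N * b)) D]
    exact h1.trans h2
  have b3 : P.pr (fun ω => IcGood P (icQ q) D x η (j * b) ω ∧ IcGood P (icS t) D g η (j * b) ω ∧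
          P.surC (icU q t (j * b)) (pair (icS t (j * b)) D) ω < (min 1 (x + g - 1) - α') * ((j * b : ℕ) : ℝ) * Real.log 2)
        ≤ (p * ((N * b : ℕ) : ℝ) * Real.log 2 + Real.log 2) / (η * ((j * b : ℕ) : ℝ) * Real.log 2) := by
    refine hcore.trans ?_
    have : 0 < η * ((j * b : ℕ) : ℝ) * Real.log 2 := by positivity
    gcongr
    exact hmi'.trans hmi
  have hsub : P.pr (fun ω => P.surC (icQ q (j * b)) D ω < T) ≤
      P.pr (fun ω => ((((¬ IcGood P (icQ q) D x η (j * b) ω) ∨ (¬ IcGood P (icS t) D g η (j * b) ω)) ∨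
        (IcGood P (icQ q) D x η (j * b) ω ∧ IcGood P (icS t) D g η (j * b) ω ∧
          P.surC (icU q t (j * b)) (pair (icS t (j * b)) D) ω < (min 1 (x + g - 1) - α') * ((j * b : ℕ) : ℝ) * Real.log 2)) ∨
        (P.surC (icQ q (j * b)) (pair (icU q t (j * b)) (pair (icS t (j * b)) D)) ω
          < (a * ((j * b : ℕ) : ℝ) - e * ((N * b : ℕ) : ℝ)) * Real.log 2)) ∨
        (P.surC (icQ q (j * b)) D ω < P.surC (icU q t (j * b)) (pair (icS t (j * b)) D) ω
        + P.surC (icQ q (j * b)) (pair (icU q t (j * b)) (pair (icS t (j * b)) D)) ω - Real.log (2 * A + 3) - 2 * s)) := by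
    refine ent_pr_mono P fun ω _ h => ?_
    by_contra hcon
    push Not at hcon
    obtain ⟨⟨⟨⟨c1, c2⟩, c3⟩, c4⟩, c5⟩ := hcon
    have c3' := c3 c1 c2
    linarith
  refine hsub.trans ?_
  refine (ent_pr_or_le P _ _).trans ?_
  refine add_le_add ?_ b5
  refine (ent_pr_or_le P _ _).trans ?_
  refine add_le_add ?_ b4
  refine (ent_pr_or_le P _ _).trans ?_
  refine add_le_add ?_ b3
  refine (ent_pr_or_le P _ _).trans ?_
  linarith

theorem ic_aux_exp_neg_le (x : ℝ) (hx : 0 < x) : Real.exp (-x) ≤ 1 / x := by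
  rw [Real.exp_neg, ← one_div]
  apply one_div_le_one_div_of_le hx
  linarith [Real.add_one_le_exp x]

/-- P4. one step of the iteration -/
theorem ic_incp_step (a g x α A e' : ℝ) (ha : 0 < a) (ha1 : a ≤ 1) (hg : 0 < g) (hg1 : g ≤ 1) (hx : 0 < x) (hx2 : x ≤ 2)
    (hα : 0 < α) (hA : 1 ≤ A) (he' : 0 < e') :
    ∃ e : ℝ, 0 < e ∧ ∃ N₀ : ℕ, ∀ N : ℕ, N₀ ≤ N → ∀ p' : ℝ, 0 < p' → ∃ p : ℝ, 0 < p ∧ ∃ b₀ : ℕ, ∀ b : ℕ, b₀ ≤ b →
      ∀ (Ω δ : Type) [Fintype Ω] (P : FLaw Ω) (q : Ω → ℝ × ℝ) (t : Ω → ℝ) (D : Ω → δ), IcBd A q t →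
      IcLin P q t D a e p N b → IcFro P (icS t) D g e p N b →
      P.miC (icQ q (N * b)) (icS t (N * b)) D ≤ p * ((N * b : ℕ) : ℝ) * Real.log 2 →
      IcFro P (icQ q) D x e p N b → IcFro P (icQ q) D (a + min 1 (x + g - 1) - α) e' p' N b := by
  obtain ⟨η, hη, n₁, Hc⟩ := ic_coreF x g (α / 2) A hx hg hg1 (half_pos hα) hA
  have hL : 0 < Real.log 2 := Real.log_pos (by norm_num)
  obtain ⟨z, hz⟩ : ∃ z : ℝ, z = e' / 2 := ⟨_, rfl⟩
  have hz0 : 0 < z := by rw [hz]; positivity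
  obtain ⟨c, hc⟩ : ∃ c : ℝ, c = e' / 8 * Real.log 2 := ⟨_, rfl⟩
  have hc0 : 0 < c := by rw [hc]; positivity
  refine ⟨min (η * z / 2) (e' / 8), lt_min (by positivity) (by positivity), max 1 ⌈4 / (η * z)⌉₊, ?_⟩
  intro N hN p' hp'
  have hN1 : 1 ≤ N := le_trans (le_max_left _ _) hN
  have hN1' : (1 : ℝ) ≤ N := by exact_mod_cast hN1
  have hN4 : 4 / (η * z) ≤ N := (Nat.le_ceil _).trans (by exact_mod_cast le_trans (le_max_right _ _) hN)
  obtain ⟨Kp, hKp⟩ : ∃ Kp : ℝ, Kp = 2 * ((N : ℝ) + 1) + 1 / (η * z) + 1 := ⟨_, rfl⟩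
  have hKp0 : 0 < Kp := by rw [hKp]; positivity
  refine ⟨p' / (2 * Kp), by positivity,
    max (max ⌈(n₁ : ℝ) / z⌉₊ ⌈Real.log (2 * A + 3) / (5 * e' / 8 * Real.log 2)⌉₊) (max ⌈4 / (η * z * p')⌉₊ ⌈8 / (c * p')⌉₊), ?_⟩
  intro b hb Ω δ _ P q t D hbd hlin hS hmi hQ j hj
  obtain ⟨e, he⟩ : ∃ e : ℝ, e = min (η * z / 2) (e' / 8) := ⟨_, rfl⟩
  obtain ⟨p, hp⟩ : ∃ p : ℝ, p = p' / (2 * Kp) := ⟨_, rfl⟩
  rw [← he, ← hp] at hlin hS hQ
  rw [← hp] at hmi
  have hp0 : 0 < p := by rw [hp]; positivity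
  have he1 : e ≤ η * z / 2 := by rw [he]; exact min_le_left _ _
  have he2 : e ≤ e' / 8 := by rw [he]; exact min_le_right _ _
  have hb1 : (n₁ : ℝ) / z ≤ b := (Nat.le_ceil _).trans (by exact_mod_cast le_trans (le_trans (le_max_left _ _) (le_max_left _ _)) hb)
  have hb2 : Real.log (2 * A + 3) / (5 * e' / 8 * Real.log 2) ≤ b :=
    (Nat.le_ceil _).trans (by exact_mod_cast le_trans (le_trans (le_max_right _ _) (le_max_left _ _)) hb)
  have hb3 : 4 / (η * z * p') ≤ b := (Nat.le_ceil _).trans (by exact_mod_cast le_trans (le_trans (le_max_left _ _) (le_max_right _ _)) hb)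
  have hb4 : 8 / (c * p') ≤ b := (Nat.le_ceil _).trans (by exact_mod_cast le_trans (le_trans (le_max_right _ _) (le_max_right _ _)) hb)
  have hb0 : (0 : ℝ) < b := lt_of_lt_of_le (by positivity) hb3
  obtain ⟨n, hn⟩ : ∃ n : ℝ, n = ((N * b : ℕ) : ℝ) := ⟨_, rfl⟩
  obtain ⟨k, hk⟩ : ∃ k : ℝ, k = ((j * b : ℕ) : ℝ) := ⟨_, rfl⟩
  have hnb : (b : ℝ) ≤ n := by
    rw [hn]; push_cast
    nlinarith
  have hnNb : n = N * b := by rw [hn]; push_cast; ring
  have hn0 : 0 < n := lt_of_lt_of_le hb0 hnb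
  have hk0 : 0 ≤ k := by rw [hk]; positivity
  show P.pr (fun ω => P.surC (icQ q (j * b)) D ω < ((a + min 1 (x + g - 1) - α) * ((j * b : ℕ) : ℝ) - e' * ((N * b : ℕ) : ℝ)) * Real.log 2) ≤ p'
  by_cases hcase : (a + min 1 (x + g - 1) - α) * k ≤ e' * n
  · have h0 : P.pr (fun ω => P.surC (icQ q (j * b)) D ω < ((a + min 1 (x + g - 1) - α) * ((j * b : ℕ) : ℝ) - e' * ((N * b : ℕ) : ℝ)) * Real.log 2) = 0 := by
      refine ent_pr_eq_zero P fun ω hω h => ?_
      have h1 := ent_surC_nonneg P (icQ q (j * b)) D hω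
      rw [← hn, ← hk] at h
      have h2 : ((a + min 1 (x + g - 1) - α) * k - e' * n) * Real.log 2 ≤ 0 :=
        mul_nonpos_of_nonpos_of_nonneg (by linarith) hL.le
      linarith
    rw [h0]; exact hp'.le
  · push Not at hcase
    have hy2 : a + min 1 (x + g - 1) - α ≤ 2 := by
      have := min_le_left 1 (x + g - 1)
      linarith
    have hkz : z * n < k := by
      have : (a + min 1 (x + g - 1) - α) * k ≤ 2 * k := mul_le_mul_of_nonneg_right hy2 hk0
      rw [hz]; linarith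
    have hkpos : 0 < k := lt_of_le_of_lt (by positivity) hkz
    have hkN : 0 < j * b := by
      have : (0 : ℝ) < ((j * b : ℕ) : ℝ) := by rw [← hk]; exact hkpos
      exact_mod_cast this
    have hkn1 : n₁ ≤ j * b := by
      have h1 : (n₁ : ℝ) ≤ z * b := by
        rw [div_le_iff₀ hz0] at hb1
        linarith
      have h2 : (n₁ : ℝ) ≤ ((j * b : ℕ) : ℝ) := by
        rw [← hk]
        have : z * b ≤ z * n := mul_le_mul_of_nonneg_left hnb hz0.le
        linarith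
      exact_mod_cast h2
    have hηzN : 4 ≤ η * z * N := by
      rw [div_le_iff₀ (by positivity)] at hN4
      linarith
    have hηk : η * z * n ≤ η * k := by
      have := mul_le_mul_of_nonneg_left hkz.le hη.le
      linarith
    have h2b : 2 * (b : ℝ) + e * n ≤ η * k := by
      have h1 : 2 * (b : ℝ) ≤ η * z * n / 2 := by
        rw [hnNb]
        nlinarith
      have h2 : e * n ≤ η * z / 2 * n := mul_le_mul_of_nonneg_right he1 hn0.le
      linarith
    have hηx : x * b + e * ((N * b : ℕ) : ℝ) ≤ η * ((j * b : ℕ) : ℝ) := by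
      rw [← hn, ← hk]
      have : x * b ≤ 2 * b := mul_le_mul_of_nonneg_right hx2 hb0.le
      linarith
    have hηg : g * b + e * ((N * b : ℕ) : ℝ) ≤ η * ((j * b : ℕ) : ℝ) := by
      rw [← hn, ← hk]
      have : g * b ≤ 2 * b := mul_le_mul_of_nonneg_right (by linarith) hb0.le
      linarith
    have hlogA : Real.log (2 * A + 3) ≤ 5 * e' / 8 * Real.log 2 * n := by
      rw [div_le_iff₀ (by positivity)] at hb2
      have : (b : ℝ) * (5 * e' / 8 * Real.log 2) ≤ n * (5 * e' / 8 * Real.log 2) :=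
        mul_le_mul_of_nonneg_right hnb (by positivity)
      linarith
    have hT : ((a + min 1 (x + g - 1) - α) * ((j * b : ℕ) : ℝ) - e' * ((N * b : ℕ) : ℝ)) * Real.log 2 ≤
        (min 1 (x + g - 1) - α / 2) * ((j * b : ℕ) : ℝ) * Real.log 2
      + (a * ((j * b : ℕ) : ℝ) - e * ((N * b : ℕ) : ℝ)) * Real.log 2 - Real.log (2 * A + 3) - 2 * (c * n) := by
      rw [← hn, ← hk, hc]
      have h1 : e * n * Real.log 2 ≤ e' / 8 * n * Real.log 2 := by gcongr
      have h2 : 0 ≤ α / 2 * k * Real.log 2 := by positivity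
      have h3 : (min 1 (x + g - 1) - α / 2) * k * Real.log 2 + (a * k - e * n) * Real.log 2 - Real.log (2 * A + 3)
          - 2 * (e' / 8 * Real.log 2 * n) - ((a + min 1 (x + g - 1) - α) * k - e' * n) * Real.log 2
          = α / 2 * k * Real.log 2 + (e' / 8 * n * Real.log 2 - e * n * Real.log 2)
            + (5 * e' / 8 * Real.log 2 * n - Real.log (2 * A + 3)) := by ring
      linarith
    have key := ic_aux_step_core P q t D A hA hbd a g x (α / 2) e p η (c * n) _ N b j hj hx.le hg.le hη hkN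
      (Hc (j * b) hkn1 Ω δ ℤ P q t D (icS t (j * b)) hbd (fun _ _ h => h)) hlin hS hmi hQ hηx hηg hT
    refine key.trans ?_
    rw [← hn, ← hk]
    have t3 : (p * n * Real.log 2 + Real.log 2) / (η * k * Real.log 2) ≤ p / (η * z) + p' / 4 := by
      have e1 : (p * n * Real.log 2 + Real.log 2) / (η * k * Real.log 2) = (p * n + 1) / (η * k) := by
        field_simp
      rw [e1]
      have e2 : (p * n + 1) / (η * k) ≤ (p * n + 1) / (η * z * n) := by
        apply div_le_div_of_nonneg_left (by positivity) (by positivity) hηk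
      have e3 : (p * n + 1) / (η * z * n) = p / (η * z) + 1 / (η * z * n) := by
        field_simp
      have e4 : 1 / (η * z * n) ≤ p' / 4 := by
        rw [div_le_iff₀ (by positivity)] at hb3
        rw [div_le_iff₀ (by positivity)]
        have : (b : ℝ) * (η * z * p') ≤ n * (η * z * p') := mul_le_mul_of_nonneg_right hnb (by positivity)
        linarith
      linarith
    have t5 : 2 * Real.exp (-(c * n)) ≤ p' / 4 := by
      have h1 := ic_aux_exp_neg_le (c * n) (by positivity)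
      have h2 : 1 / (c * n) ≤ p' / 8 := by
        rw [div_le_iff₀ (by positivity)] at hb4
        rw [div_le_iff₀ (by positivity)]
        have : (b : ℝ) * (c * p') ≤ n * (c * p') := mul_le_mul_of_nonneg_right hnb (by positivity)
        linarith
      linarith
    have t1 : 2 * (((N : ℝ) + 1) * p) + p / (η * z) + p = p' / 2 := by
      have : 2 * (((N : ℝ) + 1) * p) + p / (η * z) + p = Kp * p := by
        rw [hKp]; ring
      rw [this, hp]
      field_simp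
    linarith

/-- the exponents of the iteration -/
noncomputable def icY (a g α : ℝ) : ℕ → ℝ
  | 0 => a
  | i + 1 => a + min 1 (icY a g α i + g - 1) - α

/-- P5a. `α ≤ τ/2`, `τ = a+g-1`: `icY i ≥ min (1+a-α) (a + i τ/2)`, and `0 < icY i ≤ 2`. -/
theorem ic_icY (a g α : ℝ) (ha : 0 < a) (ha1 : a ≤ 1) (hg1 : g ≤ 1) (hα : 0 < α) (hτ : 2 * α ≤ a + g - 1) (i : ℕ) :
    min (1 + a - α) (a + i * ((a + g - 1) / 2)) ≤ icY a g α i ∧ 0 < icY a g α i ∧ icY a g α i ≤ 2 := by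
  induction i with
  | zero =>
    refine ⟨?_, ha, by show a ≤ 2; linarith⟩
    show min (1 + a - α) (a + ((0 : ℕ) : ℝ) * ((a + g - 1) / 2)) ≤ a
    refine (min_le_right _ _).trans ?_
    simp
  | succ i ih =>
    obtain ⟨h1, h2, h3⟩ := ih
    have hY : icY a g α (i + 1) = a + min 1 (icY a g α i + g - 1) - α := rfl
    have hlow : min (1 + a - α) (icY a g α i + (a + g - 1) / 2) ≤ icY a g α (i + 1) := by
      rw [hY]
      rcases le_total 1 (icY a g α i + g - 1) with h | h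
      · rw [min_eq_left h]
        refine (min_le_left _ _).trans ?_
        linarith
      · rw [min_eq_right h]
        refine (min_le_right _ _).trans ?_
        linarith
    refine ⟨?_, ?_, ?_⟩
    · refine le_trans ?_ hlow
      refine le_min (min_le_left _ _) ?_
      rcases le_total (1 + a - α) (a + (i : ℝ) * ((a + g - 1) / 2)) with h | h
      · rw [min_eq_left h] at h1
        refine (min_le_left _ _).trans ?_
        linarith
      · rw [min_eq_right h] at h1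
        refine (min_le_right _ _).trans ?_
        push_cast
        linarith
    · refine lt_of_lt_of_le ?_ hlow
      refine lt_min ?_ ?_
      · linarith
      · linarith
    · rw [hY]
      have := min_le_left 1 (icY a g α i + g - 1)
      linarith

/-- P5b. the iteration (induction on `i`; parameters are chosen backwards; `ic_fro_mono`, `ic_lin_mono`) -/
theorem ic_incp_iter (a g α A : ℝ) (ha : 0 < a) (ha1 : a ≤ 1) (hg : 0 < g) (hg1 : g ≤ 1) (hα : 0 < α)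
    (hτ : 2 * α ≤ a + g - 1) (hA : 1 ≤ A) (i : ℕ) (e' : ℝ) (he' : 0 < e') :
    ∃ e : ℝ, 0 < e ∧ ∃ N₀ : ℕ, ∀ N : ℕ, N₀ ≤ N → ∀ p' : ℝ, 0 < p' → ∃ p : ℝ, 0 < p ∧ ∃ b₀ : ℕ, ∀ b : ℕ, b₀ ≤ b →
      ∀ (Ω δ : Type) [Fintype Ω] (P : FLaw Ω) (q : Ω → ℝ × ℝ) (t : Ω → ℝ) (D : Ω → δ), IcBd A q t →
      IcLin P q t D a e p N b → IcFro P (icS t) D g e p N b →
      P.miC (icQ q (N * b)) (icS t (N * b)) D ≤ p * ((N * b : ℕ) : ℝ) * Real.log 2 →
      IcFro P (icQ q) D (icY a g α i) e' p' N b := by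
  have hl2 : 0 < Real.log 2 := Real.log_pos one_lt_two
  induction i generalizing e' with
  | zero =>
    refine ⟨e' / 2, by positivity, 1, fun N hN p' hp' => ⟨p' / 2, by positivity, ?_⟩⟩
    obtain ⟨b₀, hb₀⟩ := exists_nat_ge (-Real.log (p' / 2) / (e' / 2 * Real.log 2))
    refine ⟨b₀, fun b hb Ω δ _ P q t D _ hlin _ _ => ?_⟩
    have h1 := ic_incp_base P q t D a (e' / 2) (p' / 2) (e' / 2) N b hlin
    refine ic_fro_mono (by linarith) ?_ h1
    have h2 : Real.exp (-(e' / 2 * ((N * b : ℕ) : ℝ) * Real.log 2)) ≤ p' / 2 := by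
      rw [← Real.le_log_iff_exp_le (by positivity)]
      have h3 : (b₀ : ℝ) ≤ ((N * b : ℕ) : ℝ) := by
        have : b₀ ≤ N * b := hb.trans (Nat.le_mul_of_pos_left b hN)
        exact_mod_cast this
      have h4 : -Real.log (p' / 2) ≤ ((N * b : ℕ) : ℝ) * (e' / 2 * Real.log 2) := by
        rw [div_le_iff₀ (by positivity)] at hb₀
        exact hb₀.trans (mul_le_mul_of_nonneg_right h3 (by positivity))
      nlinarith
    linarith
  | succ i ih =>
    obtain ⟨-, hY0, hY2⟩ := ic_icY a g α ha ha1 hg1 hα hτ i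
    obtain ⟨e₁, he₁, N₁, H₁⟩ := ic_incp_step a g (icY a g α i) α A e' ha ha1 hg hg1 hY0 hY2 hα hA he'
    obtain ⟨e₂, he₂, N₂, H₂⟩ := ih e₁ he₁
    refine ⟨min e₁ e₂, lt_min he₁ he₂, max N₁ N₂, fun N hN p' hp' => ?_⟩
    obtain ⟨p₁, hp₁, b₁, K₁⟩ := H₁ N ((le_max_left _ _).trans hN) p' hp'
    obtain ⟨p₂, hp₂, b₂, K₂⟩ := H₂ N ((le_max_right _ _).trans hN) p₁ hp₁
    refine ⟨min p₁ p₂, lt_min hp₁ hp₂, max b₁ b₂, fun b hb Ω δ _ P q t D hbd hlin hfro hmi => ?_⟩
    have hn : (0 : ℝ) ≤ ((N * b : ℕ) : ℝ) * Real.log 2 := by positivity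
    have hmi₁ : P.miC (icQ q (N * b)) (icS t (N * b)) D ≤ p₁ * ((N * b : ℕ) : ℝ) * Real.log 2 := by
      refine hmi.trans ?_
      rw [mul_assoc, mul_assoc]
      exact mul_le_mul_of_nonneg_right (min_le_left _ _) hn
    have hmi₂ : P.miC (icQ q (N * b)) (icS t (N * b)) D ≤ p₂ * ((N * b : ℕ) : ℝ) * Real.log 2 := by
      refine hmi.trans ?_
      rw [mul_assoc, mul_assoc]
      exact mul_le_mul_of_nonneg_right (min_le_right _ _) hn
    have hQ := K₂ b ((le_max_right _ _).trans hb) Ω δ P q t D hbd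
      (ic_lin_mono (min_le_right _ _) (min_le_right _ _) hlin) (ic_fro_mono (min_le_right _ _) (min_le_right _ _) hfro) hmi₂
    exact K₁ b ((le_max_left _ _).trans hb) Ω δ P q t D hbd
      (ic_lin_mono (min_le_left _ _) (min_le_left _ _) hlin) (ic_fro_mono (min_le_left _ _) (min_le_left _ _) hfro) hmi₁ hQ

/-- **INC+.**  Point on its line `≥ a`, slope `≥ g`, slope almost independent of the point, `a + g > 1`:  the point has score `≥ 1 + a - ξ`. -/
theorem ic_incp (a g ξ A : ℝ) (ha : 0 < a) (ha1 : a ≤ 1) (hg : 0 < g) (hg1 : g ≤ 1) (hag : 1 < a + g) (hξ : 0 < ξ)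
    (hA : 1 ≤ A) :
    ∃ N : ℕ, 0 < N ∧ ∃ χ : ℝ, 0 < χ ∧ ∃ b₀ : ℕ, ∀ b : ℕ, b₀ ≤ b →
      ∀ (Ω δ : Type) [Fintype Ω] (P : FLaw Ω) (q : Ω → ℝ × ℝ) (t : Ω → ℝ) (D : Ω → δ), IcBd A q t →
      IcLin P q t D a χ χ N b → IcFro P (icS t) D g χ χ N b →
      P.miC (icQ q (N * b)) (icS t (N * b)) D ≤ χ * ((N * b : ℕ) : ℝ) * Real.log 2 →
      P.pr (fun ω => P.surC (icQ q (N * b)) D ω < (1 + a - ξ) * ((N * b : ℕ) : ℝ) * Real.log 2) ≤ ξ := by
  have hl2 : 0 < Real.log 2 := Real.log_pos one_lt_two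
  have hτ0 : 0 < a + g - 1 := by linarith
  set α : ℝ := min ((a + g - 1) / 2) (ξ / 2) with hαdef
  have hα : 0 < α := lt_min (by positivity) (by positivity)
  have hτ : 2 * α ≤ a + g - 1 := by
    have := min_le_left ((a + g - 1) / 2) (ξ / 2)
    linarith
  have hαξ : α ≤ ξ / 2 := min_le_right _ _
  obtain ⟨i, hi⟩ := exists_nat_ge (2 / (a + g - 1))
  have hYi : 1 + a - α ≤ icY a g α i := by
    refine le_trans (le_min le_rfl ?_) (ic_icY a g α ha ha1 hg1 hα hτ i).1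
    rw [div_le_iff₀ hτ0] at hi
    linarith
  obtain ⟨e, he, N₀, H⟩ := ic_incp_iter a g α A ha ha1 hg hg1 hα hτ hA i (ξ / 2) (by positivity)
  obtain ⟨p, hp, b₀, K⟩ := H (max N₀ 1) (le_max_left _ _) ξ hξ
  refine ⟨max N₀ 1, lt_of_lt_of_le one_pos (le_max_right _ _), min e p, lt_min he hp, b₀, fun b hb Ω δ _ P q t D hbd hlin hfro hmi => ?_⟩
  set N := max N₀ 1 with hN
  have hn : (0 : ℝ) ≤ ((N * b : ℕ) : ℝ) * Real.log 2 := by positivity
  have hmi' : P.miC (icQ q (N * b)) (icS t (N * b)) D ≤ p * ((N * b : ℕ) : ℝ) * Real.log 2 := by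
    refine hmi.trans ?_
    rw [mul_assoc, mul_assoc]
    exact mul_le_mul_of_nonneg_right (min_le_right _ _) hn
  have hQ := K b hb Ω δ P q t D hbd (ic_lin_mono (min_le_left _ _) (min_le_right _ _) hlin)
    (ic_fro_mono (min_le_left _ _) (min_le_right _ _) hfro) hmi'
  refine le_trans (ent_pr_mono P fun ω _ hω => ?_) (hQ N le_rfl)
  refine lt_of_lt_of_le hω ?_
  have h5 : (1 + a - ξ) ≤ icY a g α i - ξ / 2 := by linarith
  calc (1 + a - ξ) * ((N * b : ℕ) : ℝ) * Real.log 2 = (1 + a - ξ) * (((N * b : ℕ) : ℝ) * Real.log 2) := by ring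
    _ ≤ (icY a g α i - ξ / 2) * (((N * b : ℕ) : ℝ) * Real.log 2) := mul_le_mul_of_nonneg_right h5 hn
    _ = _ := by ring

end Claimed.Agent.R256
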