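import Claimed.Agent.R256.Inc.Defs
import Claimed.Agent.R255.Ent.Prod

/-!
# Row 256, unit INC, dictionary finite laws -> `ExTest` / `KfFrost`, leaf A1.       (architect helper157)
Plan: header of `Inc/Core.lean`.  Statements FROZEN (ask helper157); provers edit only bodies and may add auxiliary lemmas with the prefix `ic_aux_`.
-/

set_option autoImplicit false

namespace Claimed.Agent.R256

open Claimed.Agent.R255 Claimed.Agent.R255.FLaw Claimed.Agent.RW
open Classical

variable {Ω : Type} [Fintype Ω] {α β γ δ : Type}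

/-! ## A1. dyadic cells -/

theorem ic_cell_le (k : ℕ) (x : ℝ) : (icCell k x : ℝ) / 2 ^ k ≤ x := by
  rw [div_le_iff₀ (by positivity)]
  exact Int.floor_le _

theorem ic_cell_lt (k : ℕ) (x : ℝ) : x < ((icCell k x : ℝ) + 1) / 2 ^ k := by
  rw [lt_div_iff₀ (by positivity)]
  exact Int.lt_floor_add_one _

theorem ic_aux_cell_div (k j : ℕ) (x : ℝ) : icCell k x = icCell (k + j) x / (2 ^ j : ℤ) := by
  unfold icCell
  have h1 : x * 2 ^ k = x * 2 ^ (k + j) / ((2 ^ j : ℕ) : ℝ) := by
    rw [pow_add]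
    push_cast
    field_simp
  rw [h1, Int.floor_div_natCast]
  push_cast
  rfl

/-- cells are nested -/
theorem ic_cell_nest {k n : ℕ} (h : k ≤ n) {x y : ℝ} (hxy : icCell n x = icCell n y) : icCell k x = icCell k y := by
  obtain ⟨j, rfl⟩ := Nat.exists_eq_add_of_le h
  rw [ic_aux_cell_div k j x, ic_aux_cell_div k j y, hxy]

theorem ic_cell_dist {k : ℕ} {x y : ℝ} (h : icCell k x = icCell k y) : |x - y| ≤ 1 / 2 ^ k := by
  have h1 := ic_cell_le k x
  have h2 := ic_cell_lt k x
  have h3 := ic_cell_le k y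
  have h4 := ic_cell_lt k y
  rw [h] at h1 h2
  rw [add_div] at h2 h4
  rw [abs_le]
  constructor <;> linarith

theorem ic_cell_near {k : ℕ} {x y : ℝ} (m : ℕ) (h : |x - y| ≤ m / 2 ^ k) : |icCell k x - icCell k y| ≤ (m : ℤ) := by
  have hp : (0 : ℝ) < 2 ^ k := by positivity
  rw [le_div_iff₀ hp] at h
  have h' : |x * 2 ^ k - y * 2 ^ k| ≤ m := by
    rw [← sub_mul, abs_mul, abs_of_pos hp]
    exact h
  obtain ⟨h1, h2⟩ := abs_le.1 h'
  unfold icCell
  rw [abs_le]
  constructor
  · have : ⌊y * 2 ^ k⌋ ≤ ⌊x * 2 ^ k + (m : ℝ)⌋ := Int.floor_le_floor (by linarith)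
    rw [Int.floor_add_natCast] at this
    linarith
  · have : ⌊x * 2 ^ k⌋ ≤ ⌊y * 2 ^ k + (m : ℝ)⌋ := Int.floor_le_floor (by linarith)
    rw [Int.floor_add_natCast] at this
    linarith
end Claimed.Agent.R256
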