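import Claimed.Agent.R256.Inc.Defs
import Claimed.Agent.R255.Ent.Prod

/-!
# Row 256, unit INC, dictionary finite laws -> `ExTest` / `KfFrost`, leaf A8.       (architect helper157)
Plan: header of `Inc/Core.lean`.  Statements FROZEN (ask helper157); provers edit only bodies and may add auxiliary lemmas with the prefix `ic_aux_`.
-/

set_option autoImplicit false

namespace Claimed.Agent.R256

open Claimed.Agent.R255 Claimed.Agent.R255.FLaw Claimed.Agent.RW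
open Classical

variable {Ω : Type} [Fintype Ω] {α β γ δ : Type}

/-! ## A8. side data: the bound is linear in the law -/

/-- the support of a fibre law -/
theorem ic_aux_cfib_supp (P : FLaw Ω) (D : Ω → δ) {ω₀ : Ω} (h0 : 0 < P.fib D ω₀) {ω : Ω} (h : (P.cfib D ω₀).p ω ≠ 0) :
    D ω = D ω₀ ∧ P.p ω ≠ 0 :=
  (ent_cnd_supp P (fun ω => D ω = D ω₀) h0).1 h

theorem ic_lift (P : FLaw Ω) (D : Ω → δ) (X : Ω → α) (Y : Ω → β) (E : FLaw Ω → Ω → Prop) (E' : Ω → Prop) (c : ℝ)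
    (hc : 0 < c)
    (hfib : ∀ ω₀, P.p ω₀ ≠ 0 → (P.cfib D ω₀).pr (E (P.cfib D ω₀)) ≤ ((P.cfib D ω₀).mi X Y + Real.log 2) / c)
    (hE : ∀ ω₀ ω, P.p ω₀ ≠ 0 → P.p ω ≠ 0 → D ω = D ω₀ → E' ω → E (P.cfib D ω₀) ω) :
    P.pr E' ≤ (P.miC X Y D + Real.log 2) / c := by
  rw [ent_pr_tower P D E', ent_miC_eq_avg]
  have e : (P.ev (fun ω => (P.cfib D ω).mi X Y) + Real.log 2) / c
      = P.ev (fun ω => c⁻¹ * ((P.cfib D ω).mi X Y + Real.log 2)) := by
    rw [ent_ev_mul_left, ent_ev_add, ent_ev_const, div_eq_inv_mul]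
  rw [e]
  refine ent_ev_mono P fun ω₀ h0 => ?_
  rw [← div_eq_inv_mul]
  refine le_trans ?_ (hfib ω₀ h0)
  refine ent_pr_mono _ fun ω hω hE' => ?_
  obtain ⟨h1, h2⟩ := ic_aux_cfib_supp P D (ent_fib_pos P D h0) hω
  exact hE ω₀ ω h0 h2 h1 hE'

/-- surprisals given `(Y, D)` are the surprisals given `Y` of the fibre law -/
theorem ic_sur_fib (P : FLaw Ω) (X : Ω → α) (Y : Ω → β) (D : Ω → δ) {ω₀ ω : Ω} (h : P.p ω ≠ 0) (hD : D ω = D ω₀) :
    (P.cfib D ω₀).surC X (pair Y (fun _ => ())) ω = P.surC X (pair Y D) ω := by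
  have h0 : 0 < P.fib D ω₀ := by
    rw [← ent_fib_congr P D hD]
    exact ent_fib_pos P D h
  rw [← ent_surC_cfib P (pair Y D) X D (fun ω ω' hh => congrArg Prod.snd hh) hD h]
  refine ent_surC_congr _ X X _ _ ω (fun ω' hω' => ?_) (fun _ _ _ => Iff.rfl)
  obtain ⟨h1, -⟩ := ic_aux_cfib_supp P D h0 hω'
  simp only [FLaw.pair, Prod.mk.injEq, and_true]
  constructor
  · intro hy
    exact ⟨hy, h1.trans hD.symm⟩
  · intro hy
    exact hy.1

theorem ic_sur_fib0 (P : FLaw Ω) (X : Ω → α) (D : Ω → δ) {ω₀ ω : Ω} (h : P.p ω ≠ 0) (hD : D ω = D ω₀) :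
    (P.cfib D ω₀).surC X (fun _ => ()) ω = P.surC X D ω := by
  have h0 : 0 < P.fib D ω₀ := by
    rw [← ent_fib_congr P D hD]
    exact ent_fib_pos P D h
  rw [← ent_surC_cfib P D X D (fun ω ω' hh => hh) hD h]
  refine ent_surC_congr _ X X _ _ ω (fun ω' hω' => ?_) (fun _ _ _ => Iff.rfl)
  obtain ⟨h1, -⟩ := ic_aux_cfib_supp P D h0 hω'
  constructor
  · intro _
    exact h1.trans hD.symm
  · intro _
    rfl

end Claimed.Agent.R256
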