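import Claimed.Agent.R256.Inc.CoreA6
import Claimed.Agent.R256.Inc.CoreA8
import Claimed.Agent.RW.Export

/-!
# Row 256, unit INC, file 2: the two projection theorems of team RW (`ex_F`, `ex_W1`) in the language of finite laws.     (architect helper157)

`ic_coreF`, `ic_coreW` are the ONLY doors to `RW/Export`: the consumers (`Incp.lean`, `Inch*.lean`) never see `ExTest`.
TAGS: `Tg` is any name that determines the slope cell `icS t n` (take `Tg = icS t n`, or a finer record of the slope: unit FP conditions on the full tag).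
In the plan below read `Tg` for the slope cell in the graph (`Tg ω₂ = Tg ω'`), in the popular lists and in the mutual information.
Form: the event "all Frostman hypotheses hold at `ω` AND the intercept cell is popular given the slope" has probability
`≤ (I(point ; slope | D) + log 2) / (η n log 2)`.

PROOF (no side data, `ic_coreF0`).  `ρ = 2^-n`, `E` = the event, `p0 = P.pr E`; suppose `p0 > (mi + log 2)/(2 η n log 2)`, `2 η = η_F` of `ex_F d s (α/2) A`.
`X = T = Ω`, `μ ω = P.p ω` if `ω` is a Frostman point of `icQ`, else `0`; `ν` the same with `icS`; `pt = q`, `sl = t`.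
* `KfFrost`: a ball of radius `r ∈ (2^-(k+1), 2^-k]` meets `≤ 9` (resp. `3`) cells of level `k`; a cell with a good point has mass `exp (-surC) ≤ 2^(ηn - dk)`  (`ic_frost2`, `ic_frost1`); the constants `9·2^d`, `3·2^s` are `≤ 2^(ηn)` for large `n`.
* graph `G = {(ω,ω') : ∃ ω₂ ∈ E, P.p ω₂ ≠ 0, icQ q n ω₂ = icQ q n ω, icS t n ω₂ = icS t n ω'}`; goodness is a function of the cell (`ic_good_congr`), so `μ ν = P.p P.p` on `G`;
  product mass `≥ exp (-(mi + log 2)/p0) ≥ ρ^(2η)`  (`ic_prod_mass`).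
* covering: `|kfProj (t ω') (q ω) - icW q t ω₂| ≤ (1+2A) ρ`, and `icU q t n ω₂` is one of `< 2^(un)` popular cells of the slope cell  (`ic_pop_cover`).   These three items = `ic_extest`.
* `ex_F` gives `2^((min - α/2) n) ≤ M ≤ (4A+6) 2^((min - α) n) + 1`: false for large `n`.
`ic_coreW0`: the same with `GQ ω = (column Frostman β) ∧ (cell in column ≤ 2^-(σ-χ)n)`, `lam ω = P.p ω` on the Frostman columns, `xr = (q ·).1`, `2 χ = χ_W` of `ex_W1 β γ σ (max A 2)`;
 `hU`: a ball of radius `ρ` meets `≤ 9` cells in `≤ 3` columns, each column lies in `{|xr - z.1| ≤ 2ρ}`, good cell `≤ 2^-(σ-χ)n ·` column; the constant `3` (each column counted 3 times) is `≤ 2^(χ n)`.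
Side data (`ic_lift`): `P.pr E = E[(P.cfib D ω).pr E]`, `miC = E[mi of the fibre]`, surprisals given `(·, D)` are the surprisals of the fibre law (`ic_sur_fib`, `ic_sur_fib0`): the bound is LINEAR in the law, no Markov.
-/

set_option autoImplicit false

namespace Claimed.Agent.R256

open Claimed.Agent.R255 Claimed.Agent.R255.FLaw Claimed.Agent.RW
open Classical

/-- `2^(c n)` beats every constant -/
theorem ic_aux_large (c C : ℝ) (hc : 0 < c) : ∃ n₁ : ℕ, ∀ n : ℕ, n₁ ≤ n → C < (2 : ℝ) ^ (c * n) := by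
  have h1 : (1 : ℝ) < 2 ^ c := Real.one_lt_rpow (by norm_num) hc
  obtain ⟨n₁, h⟩ := Filter.eventually_atTop.1 ((tendsto_pow_atTop_atTop_of_one_lt h1).eventually_gt_atTop C)
  refine ⟨n₁, fun n hn => ?_⟩
  rw [Real.rpow_mul (by norm_num), Real.rpow_natCast]
  exact h n hn

/-- powers of `ρ = 2^-n` -/
theorem ic_aux_rho (n : ℕ) (x : ℝ) : ((2 : ℝ) ^ (-(n : ℝ))) ^ x = 2 ^ (-(x * n)) := by
  rw [← Real.rpow_mul (by norm_num)]
  congr 1
  ring

theorem ic_aux_frost_mono {ι Y : Type} [Fintype ι] [PseudoMetricSpace Y] {w : ι → ℝ} {pos : ι → Y} {C C' e ρ : ℝ} (hρ : 0 < ρ)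
    (hC : C ≤ C') (h : KfFrost w pos C e ρ) : KfFrost w pos C' e ρ :=
  fun z r hr hr1 => (h z r hr hr1).trans (mul_le_mul_of_nonneg_right hC (Real.rpow_nonneg (hρ.le.trans hr) _))

/-- the planar cells are nested -/
theorem ic_aux_Q_nest {Ω : Type} (q : Ω → ℝ × ℝ) {k n : ℕ} (h : k ≤ n) (ω ω' : Ω) (hq : icQ q n ω = icQ q n ω') :
    icQ q k ω = icQ q k ω' := by
  unfold icQ at hq ⊢
  simp only [Prod.mk.injEq] at hq ⊢
  exact ⟨ic_cell_nest h hq.1, ic_cell_nest h hq.2⟩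

/-- the end of both arguments: `2^((v + c) n) ≤ M ≤ K 2^(v n) + 1` is impossible if `0 ≤ v` and `K + 1 < 2^(c n)` -/
theorem ic_aux_absurd (K v c M : ℝ) (n : ℕ) (_hK : 0 ≤ K) (hv : 0 ≤ v) (h1 : K + 1 < (2 : ℝ) ^ (c * n))
    (h2 : (2 : ℝ) ^ ((v + c) * n) ≤ M) (h3 : M ≤ K * 2 ^ (v * n) + 1) : False := by
  have e : (2 : ℝ) ^ ((v + c) * n) = 2 ^ (v * n) * 2 ^ (c * n) := by
    rw [← Real.rpow_add (by norm_num)]
    congr 1
    ring
  have h4 : (1 : ℝ) ≤ 2 ^ (v * n) := Real.one_le_rpow (by norm_num) (by positivity)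
  rw [e] at h2
  nlinarith

/-- `ic_coreF` without side data -/
theorem ic_coreF0 (d s α A : ℝ) (hd : 0 < d) (hs : 0 < s) (hs1 : s ≤ 1) (hα : 0 < α) (hA : 1 ≤ A) :
    ∃ η : ℝ, 0 < η ∧ ∃ n₁ : ℕ, ∀ n : ℕ, n₁ ≤ n → ∀ (Ω β' : Type) [Fintype Ω] (P : FLaw Ω) (q : Ω → ℝ × ℝ) (t : Ω → ℝ)
      (Tg : Ω → β'), IcBd A q t → (∀ ω ω', Tg ω = Tg ω' → icS t n ω = icS t n ω') →
      P.pr (fun ω => IcGood P (icQ q) (fun _ => ()) d η n ω ∧ IcGood P (icS t) (fun _ => ()) s η n ω ∧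
          P.surC (icU q t n) (pair Tg (fun _ => ())) ω < (min 1 (d + s - 1) - α) * n * Real.log 2)
        ≤ (P.mi (icQ q n) Tg + Real.log 2) / (η * n * Real.log 2) := by
  obtain ⟨ηF, hηF, ρ₁, hρ₁, HF⟩ := ex_F d s (α / 2) A hd hs hs1 (by positivity) hA
  have hη : 0 < ηF / 2 := by positivity
  obtain ⟨n1, hn1⟩ := ic_aux_large 1 (1 / ρ₁) one_pos
  obtain ⟨n2, hn2⟩ := ic_aux_large (ηF / 2) (3 * 2 ^ s) hη
  obtain ⟨n3, hn3⟩ := ic_aux_large (ηF / 2) (9 * 2 ^ d) hη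
  obtain ⟨n4, hn4⟩ := ic_aux_large (α / 2) (4 * A + 6 + 1) (by positivity)
  refine ⟨ηF / 2, hη, max (max (max n1 n2) (max n3 n4)) 1, fun n hn Ω β' _ P q t Tg hbd hTg => ?_⟩
  have g1 := hn1 n (by omega)
  have g2 := hn2 n (by omega)
  have g3 := hn3 n (by omega)
  have g4 := hn4 n (by omega)
  have hn0 : 0 < n := by omega
  have hn0' : (0 : ℝ) < n := by exact_mod_cast hn0
  have hl2 : 0 < Real.log 2 := Real.log_pos (by norm_num)
  have hmi := ent_mi_nonneg P (icQ q n) Tg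
  set η : ℝ := ηF / 2 with hηdef
  set m : ℝ := min 1 (d + s - 1) with hm
  set E : Ω → Prop := fun ω => IcGood P (icQ q) (fun _ => ()) d η n ω ∧ IcGood P (icS t) (fun _ => ()) s η n ω ∧
          P.surC (icU q t n) (pair Tg (fun _ => ())) ω < (m - α) * n * Real.log 2 with hE
  have hrhs : 0 ≤ (P.mi (icQ q n) Tg + Real.log 2) / (η * n * Real.log 2) := by positivity
  -- the trivial range
  rcases le_or_gt (m - α) 0 with hneg | hpos
  · have : P.pr E = 0 := by
      refine ent_pr_eq_zero P fun ω hω hEω => ?_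
      have h1 := ent_surC_nonneg P (icU q t n) (pair Tg (fun _ => ())) hω
      have h2 : (m - α) * n * Real.log 2 ≤ 0 :=
        mul_nonpos_of_nonpos_of_nonneg (mul_nonpos_of_nonpos_of_nonneg hneg hn0'.le) hl2.le
      linarith [hEω.2.2]
    rw [this]
    exact hrhs
  by_contra hcon
  push Not at hcon
  have hmass : (P.mi (icQ q n) Tg + Real.log 2) / (2 * η * n * Real.log 2) < P.pr E := by
    refine lt_of_le_of_lt ?_ hcon
    apply div_le_div_of_nonneg_left (by positivity) (by positivity)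
    nlinarith [mul_pos (mul_pos hη hn0') hl2]
  obtain ⟨G, M, hM, hT⟩ := ic_extest P q t A s η (m - α) n hA hbd hs.le hη hn0 g2.le Tg hTg
    (fun ω => IcGood P (icQ q) (fun _ => ()) d η n ω) E
    (fun ω ω' h => ic_good_congr P (icQ q) (fun _ => ()) d η n (fun k hk ω ω' h' => ic_aux_Q_nest q hk ω ω' h') h rfl)
    (fun ω hω => hω) hmass
  have hρ0 : (0 : ℝ) < 2 ^ (-(n : ℝ)) := Real.rpow_pos_of_pos (by norm_num) _
  have hρ1 : (2 : ℝ) ^ (-(n : ℝ)) < ρ₁ := by
    rw [Real.rpow_neg (by norm_num), inv_lt_comm₀ (by positivity) hρ₁, ← one_div]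
    simpa using g1
  have e2η : 2 * η = ηF := by rw [hηdef]; ring
  rw [e2η] at hT
  have hFr : KfFrost (fun ω => if IcGood P (icQ q) (fun _ => ()) d η n ω then P.p ω else 0) q
      (((2 : ℝ) ^ (-(n : ℝ))) ^ (-ηF)) d (2 ^ (-(n : ℝ))) := by
    refine ic_aux_frost_mono hρ0 ?_ (ic_frost2 P q d η n hd.le)
    rw [ic_aux_rho]
    have e : (2 : ℝ) ^ (-(-ηF * n)) = 2 ^ (η * n) * 2 ^ (η * n) := by
      rw [← Real.rpow_add (by norm_num)]
      congr 1
      rw [hηdef]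
      ring
    rw [e]
    exact mul_le_mul_of_nonneg_right g3.le (Real.rpow_nonneg (by norm_num) _)
  have hfin := HF _ hρ0 hρ1 Ω Ω _ _ q t G M hT hFr
  rw [ic_aux_rho] at hfin
  refine ic_aux_absurd (4 * A + 6) (m - α) (α / 2) M n (by linarith) hpos.le g4 ?_ hM
  refine le_trans (le_of_eq ?_) hfin
  congr 1
  ring

/-- **Falconer range.**  Point Frostman `d`, slope Frostman `s`: the intercept given the slope has score `≥ min(1, d+s-1) - α`. -/
theorem ic_coreF (d s α A : ℝ) (hd : 0 < d) (hs : 0 < s) (hs1 : s ≤ 1) (hα : 0 < α) (hA : 1 ≤ A) :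
    ∃ η : ℝ, 0 < η ∧ ∃ n₁ : ℕ, ∀ n : ℕ, n₁ ≤ n → ∀ (Ω δ β' : Type) [Fintype Ω] (P : FLaw Ω) (q : Ω → ℝ × ℝ) (t : Ω → ℝ)
      (D : Ω → δ) (Tg : Ω → β'), IcBd A q t → (∀ ω ω', Tg ω = Tg ω' → icS t n ω = icS t n ω') →
      P.pr (fun ω => IcGood P (icQ q) D d η n ω ∧ IcGood P (icS t) D s η n ω ∧
          P.surC (icU q t n) (pair Tg D) ω < (min 1 (d + s - 1) - α) * n * Real.log 2)
        ≤ (P.miC (icQ q n) Tg D + Real.log 2) / (η * n * Real.log 2) := by
  obtain ⟨η, hη, n₁, H⟩ := ic_coreF0 d s α A hd hs hs1 hα hA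
  refine ⟨η, hη, max n₁ 1, fun n hn Ω δ β' _ P q t D Tg hbd hTg => ?_⟩
  have hn0 : (0 : ℝ) < n := by
    have : 0 < n := by omega
    exact_mod_cast this
  have hl2 : 0 < Real.log 2 := Real.log_pos (by norm_num)
  refine ic_lift P D (icQ q n) Tg
    (fun Q ω => IcGood Q (icQ q) (fun _ => ()) d η n ω ∧ IcGood Q (icS t) (fun _ => ()) s η n ω ∧
          Q.surC (icU q t n) (pair Tg (fun _ => ())) ω < (min 1 (d + s - 1) - α) * n * Real.log 2) _ _ (by positivity)
    (fun ω₀ _ => H n (by omega) Ω β' (P.cfib D ω₀) q t Tg hbd hTg) ?_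
  intro ω₀ ω _ hω hD hE
  obtain ⟨h1, h2, h3⟩ := hE
  refine ⟨fun k hk => ?_, fun k hk => ?_, ?_⟩
  · rw [ic_sur_fib0 P _ D hω hD]
    exact h1 k hk
  · rw [ic_sur_fib0 P _ D hω hD]
    exact h2 k hk
  · rw [ic_sur_fib P _ _ D hω hD]
    exact h3

/-- the columns are nested -/
theorem ic_aux_X_nest {Ω : Type} (q : Ω → ℝ × ℝ) {k n : ℕ} (h : k ≤ n) (ω ω' : Ω) (hq : icX q n ω = icX q n ω') :
    icX q k ω = icX q k ω' := ic_cell_nest h hq

/-- `ρ = 2^-n` -/
theorem ic_aux_rho_eq (n : ℕ) : (2 : ℝ) ^ (-(n : ℝ)) = 1 / 2 ^ n := by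
  rw [Real.rpow_neg (by norm_num), Real.rpow_natCast, one_div]

/-- a surprisal is a function of the names -/
theorem ic_aux_sur_congr {Ω α β : Type} [Fintype Ω] (P : FLaw Ω) (X : Ω → α) (Y : Ω → β) {ω ω' : Ω} (hX : X ω = X ω') (hY : Y ω = Y ω') :
    P.surC X Y ω = P.surC X Y ω' := by
  unfold FLaw.surC
  have h1 : pair X Y ω = pair X Y ω' := by
    unfold FLaw.pair
    rw [hX, hY]
  rw [ent_fib_congr P _ h1, ent_fib_congr P _ hY]

/-- a cell which is light in its column -/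
theorem ic_aux_cell_col {Ω : Type} [Fintype Ω] (P : FLaw Ω) (q : Ω → ℝ × ℝ) (n : ℕ) (v : ℝ) {x : Ω} (hx : P.p x ≠ 0)
    (h : v * n * Real.log 2 ≤ P.surC (icQ q n) (pair (icX q n) (fun _ => ())) x) :
    P.fib (icQ q n) x ≤ 2 ^ (-(v * n)) * P.fib (icX q n) x := by
  have e1 : P.fib (pair (icQ q n) (pair (icX q n) (fun _ => ()))) x = P.fib (icQ q n) x := by
    refine ent_pr_congr P fun ω' _ => ?_
    simp only [FLaw.pair, Prod.mk.injEq, and_true]
    constructor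
    · exact fun hh => hh.1
    · exact fun hh => ⟨hh, congrArg Prod.fst hh⟩
  have e2 : P.fib (pair (icX q n) (fun _ => ())) x = P.fib (icX q n) x := by
    refine ent_pr_congr P fun ω' _ => ?_
    simp only [FLaw.pair, Prod.mk.injEq, and_true]
  unfold FLaw.surC at h
  rw [e1, e2] at h
  have f1 := ent_fib_pos P (icQ q n) hx
  have f2 := ent_fib_pos P (icX q n) hx
  have h2 : Real.log (P.fib (icQ q n) x / P.fib (icX q n) x) ≤ Real.log 2 * (-(v * n)) := by linarith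
  have h3 : P.fib (icQ q n) x / P.fib (icX q n) x ≤ 2 ^ (-(v * n)) := by
    rw [Real.rpow_def_of_pos (by norm_num), ← Real.log_le_iff_le_exp (div_pos f1 f2)]
    exact h2
  rwa [div_le_iff₀ f2] at h3

/-- the hypothesis `hU` of `ex_W1` -/
theorem ic_aux_hU {Ω : Type} [Fintype Ω] (P : FLaw Ω) (q : Ω → ℝ × ℝ) (β σ χ A' : ℝ) (n : ℕ) (hA' : 2 ≤ A')
    (h3 : 3 ≤ (2 : ℝ) ^ (χ * n)) (z : ℝ × ℝ) :
    ∑ x with dist (q x) z ≤ 2 ^ (-(n : ℝ)),
        (if IcGood P (icX q) (fun _ => ()) β χ n x ∧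
            (σ - χ) * n * Real.log 2 ≤ P.surC (icQ q n) (pair (icX q n) (fun _ => ())) x then P.p x else 0)
      ≤ ((2 : ℝ) ^ (-(n : ℝ))) ^ (σ - 2 * χ) *
        ∑ j with dist (q j).1 z.1 ≤ A' * 2 ^ (-(n : ℝ)), (if IcGood P (icX q) (fun _ => ()) β χ n j then P.p j else 0) := by
  set GX : Ω → Prop := fun x => IcGood P (icX q) (fun _ => ()) β χ n x with hGX
  set GQ : Ω → Prop := fun x => GX x ∧ (σ - χ) * n * Real.log 2 ≤ P.surC (icQ q n) (pair (icX q n) (fun _ => ())) x with hGQ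
  set μ : Ω → ℝ := fun x => if GQ x then P.p x else 0 with hμ
  set lam : Ω → ℝ := fun x => if GX x then P.p x else 0 with hlam
  have hμ0 : ∀ x, 0 ≤ μ x := fun x => by
    simp only [hμ]; split_ifs; exacts [P.nonneg x, le_rfl]
  have hlam0 : ∀ x, 0 ≤ lam x := fun x => by
    simp only [hlam]; split_ifs; exacts [P.nonneg x, le_rfl]
  set a : ℤ := icCell n z.1 with ha
  set b : ℤ := icCell n z.2 with hb
  set K : ℝ := 2 ^ (-((σ - χ) * n)) with hK
  have hK0 : 0 < K := Real.rpow_pos_of_pos (by norm_num) _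
  have hp : (0 : ℝ) < 2 ^ n := by positivity
  set T : ℤ → ℝ := fun a' => ∑ x, if icX q n x = a' then lam x else 0 with hT
  have hT0 : ∀ a', 0 ≤ T a' := fun a' => Finset.sum_nonneg fun x _ => by
    split_ifs; exacts [hlam0 x, le_rfl]
  set S : ℤ × ℤ → ℝ := fun c => ∑ x, if icQ q n x = c then μ x else 0 with hS
  -- step 3
  have step3 : ∀ c, S c ≤ K * T c.1 := by
    intro c
    by_cases hex : ∃ x₀, icQ q n x₀ = c ∧ GQ x₀ ∧ P.p x₀ ≠ 0
    · obtain ⟨x₀, rfl, hg, hx₀⟩ := hex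
      have s1 : S (icQ q n x₀) ≤ P.fib (icQ q n) x₀ := by
        refine Finset.sum_le_sum fun x _ => ?_
        by_cases hc : icQ q n x = icQ q n x₀
        · rw [if_pos hc, if_pos hc]
          simp only [hμ]
          split_ifs
          exacts [le_rfl, P.nonneg x]
        · rw [if_neg hc, if_neg hc]
      have s2 := ic_aux_cell_col P q n (σ - χ) hx₀ hg.2
      have s3 : P.fib (icX q n) x₀ = T (icQ q n x₀).1 := by
        refine Finset.sum_congr rfl fun x _ => ?_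
        have e : (icQ q n x₀).1 = icX q n x₀ := rfl
        rw [e]
        by_cases hc : icX q n x = icX q n x₀
        · rw [if_pos hc, if_pos hc]
          have : GX x := (ic_good_congr P (icX q) (fun _ => ()) β χ n
            (fun k hk ω ω' h' => ic_aux_X_nest q hk ω ω' h') hc rfl).2 hg.1
          simp only [hlam]
          rw [if_pos this]
        · rw [if_neg hc, if_neg hc]
      rw [← s3]
      exact s1.trans s2
    · have : S c = 0 := by
        refine Finset.sum_eq_zero fun x _ => ?_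
        by_cases hc : icQ q n x = c
        · rw [if_pos hc]
          simp only [hμ]
          by_cases hg : GQ x
          · rw [if_pos hg]
            by_contra hne
            exact hex ⟨x, hc, hg, hne⟩
          · rw [if_neg hg]
        · rw [if_neg hc]
      rw [this]
      exact mul_nonneg hK0.le (hT0 _)
  -- step 1, 2
  have step12 : ∑ x with dist (q x) z ≤ 2 ^ (-(n : ℝ)), μ x
      ≤ ∑ c ∈ Finset.Icc (a - 1) (a + 1) ×ˢ Finset.Icc (b - 1) (b + 1), S c := by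
    rw [Finset.sum_filter]
    simp only [hS]
    rw [Finset.sum_comm]
    refine Finset.sum_le_sum fun x _ => ?_
    rw [Finset.sum_ite_eq]
    by_cases hd : dist (q x) z ≤ 2 ^ (-(n : ℝ))
    · rw [if_pos hd]
      have hmem : icQ q n x ∈ Finset.Icc (a - 1) (a + 1) ×ˢ Finset.Icc (b - 1) (b + 1) := by
        rw [Prod.dist_eq, ic_aux_rho_eq, max_le_iff, Real.dist_eq, Real.dist_eq] at hd
        have c1 := ic_cell_near (k := n) 1 (by simpa using hd.1)
        have c2 := ic_cell_near (k := n) 1 (by simpa using hd.2)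
        rw [abs_le] at c1 c2
        rw [Finset.mem_product, Finset.mem_Icc, Finset.mem_Icc]
        simp only [icQ]
        push_cast at c1 c2
        constructor <;> constructor <;> omega
      rw [if_pos hmem]
    · rw [if_neg hd]
      split_ifs
      exacts [hμ0 x, le_rfl]
  -- step 5
  have step5 : ∑ a' ∈ Finset.Icc (a - 1) (a + 1), T a' ≤ ∑ j with dist (q j).1 z.1 ≤ A' * 2 ^ (-(n : ℝ)), lam j := by
    rw [Finset.sum_filter]
    simp only [hT]
    rw [Finset.sum_comm]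
    refine Finset.sum_le_sum fun x _ => ?_
    rw [Finset.sum_ite_eq]
    by_cases hm : icX q n x ∈ Finset.Icc (a - 1) (a + 1)
    · rw [if_pos hm]
      have hd : dist (q x).1 z.1 ≤ A' * 2 ^ (-(n : ℝ)) := by
        rw [Finset.mem_Icc] at hm
        have l1 := ic_cell_le n (q x).1
        have l2 := ic_cell_lt n (q x).1
        have l3 := ic_cell_le n z.1
        have l4 := ic_cell_lt n z.1
        have m1 : ((a : ℝ) - 1) ≤ (icCell n (q x).1 : ℝ) := by exact_mod_cast hm.1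
        have m2 : (icCell n (q x).1 : ℝ) ≤ (a : ℝ) + 1 := by exact_mod_cast hm.2
        rw [div_le_iff₀ hp] at l1 l3
        rw [lt_div_iff₀ hp] at l2 l4
        have k1 : |(q x).1 - z.1| * 2 ^ n ≤ 2 := by
          rw [← ha] at l3 l4
          rw [← abs_of_pos hp, ← abs_mul, abs_le, sub_mul]
          constructor <;> linarith
        rw [Real.dist_eq, ic_aux_rho_eq, mul_one_div, le_div_iff₀ hp]
        linarith
      rw [if_pos hd]
    · rw [if_neg hm]
      split_ifs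
      exacts [hlam0 x, le_rfl]
  -- assembly
  have hcard : ((Finset.Icc (b - 1) (b + 1)).card : ℝ) = 3 := by
    rw [Int.card_Icc]
    have : (b + 1 + 1 - (b - 1)).toNat = 3 := by
      have : b + 1 + 1 - (b - 1) = 3 := by ring
      rw [this]
      rfl
    rw [this]
    norm_num
  have hL0 : 0 ≤ ∑ j with dist (q j).1 z.1 ≤ A' * 2 ^ (-(n : ℝ)), lam j := Finset.sum_nonneg fun j _ => hlam0 j
  calc ∑ x with dist (q x) z ≤ 2 ^ (-(n : ℝ)), μ x
      ≤ ∑ c ∈ Finset.Icc (a - 1) (a + 1) ×ˢ Finset.Icc (b - 1) (b + 1), S c := step12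
    _ ≤ ∑ c ∈ Finset.Icc (a - 1) (a + 1) ×ˢ Finset.Icc (b - 1) (b + 1), K * T c.1 := Finset.sum_le_sum fun c _ => step3 c
    _ = 3 * K * ∑ a' ∈ Finset.Icc (a - 1) (a + 1), T a' := by
        rw [Finset.sum_product]
        simp only [Finset.sum_const, nsmul_eq_mul, hcard]
        rw [Finset.mul_sum]
        exact Finset.sum_congr rfl fun _ _ => by ring
    _ ≤ 3 * K * ∑ j with dist (q j).1 z.1 ≤ A' * 2 ^ (-(n : ℝ)), lam j :=
        mul_le_mul_of_nonneg_left step5 (by positivity)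
    _ ≤ ((2 : ℝ) ^ (-(n : ℝ))) ^ (σ - 2 * χ) * ∑ j with dist (q j).1 z.1 ≤ A' * 2 ^ (-(n : ℝ)), lam j := by
        refine mul_le_mul_of_nonneg_right ?_ hL0
        rw [ic_aux_rho]
        have e : (2 : ℝ) ^ (-((σ - 2 * χ) * n)) = 2 ^ (χ * n) * K := by
          rw [hK, ← Real.rpow_add (by norm_num)]
          congr 1
          ring
        rw [e]
        exact mul_le_mul_of_nonneg_right h3 hK0.le

/-- `ic_coreW` without side data -/
theorem ic_coreW0 (β γ σ A : ℝ) (hβ : 0 < β) (hγ : 0 < γ) (hσ0 : 0 ≤ σ) (hσ : σ < min 1 (β + γ)) (hA : 1 ≤ A) :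
    ∃ χ : ℝ, 0 < χ ∧ ∃ n₁ : ℕ, ∀ n : ℕ, n₁ ≤ n → ∀ (Ω β' : Type) [Fintype Ω] (P : FLaw Ω) (q : Ω → ℝ × ℝ) (t : Ω → ℝ)
      (Tg : Ω → β'), IcBd A q t → (∀ ω ω', Tg ω = Tg ω' → icS t n ω = icS t n ω') →
      P.pr (fun ω => IcGood P (icX q) (fun _ => ()) β χ n ω ∧ IcGood P (icS t) (fun _ => ()) γ χ n ω ∧
          (σ - χ) * n * Real.log 2 ≤ P.surC (icQ q n) (pair (icX q n) (fun _ => ())) ω ∧
          P.surC (icU q t n) (pair Tg (fun _ => ())) ω < (σ + χ) * n * Real.log 2)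
        ≤ (P.mi (icQ q n) Tg + Real.log 2) / (χ * n * Real.log 2) := by
  have hA' : 1 ≤ max A 2 := le_max_of_le_left hA
  obtain ⟨χW, hχW, ρ₁, hρ₁, HW⟩ := ex_W1 β γ σ (max A 2) hβ hγ hσ0 hσ hA'
  have hχ : 0 < χW / 2 := by positivity
  obtain ⟨n1, hn1⟩ := ic_aux_large 1 (1 / ρ₁) one_pos
  obtain ⟨n2, hn2⟩ := ic_aux_large (χW / 2) (3 * 2 ^ γ) hχ
  obtain ⟨n3, hn3⟩ := ic_aux_large (χW / 2) (3 * 2 ^ β) hχ
  obtain ⟨n4, hn4⟩ := ic_aux_large (χW / 2) (4 * max A 2 + 6 + 1) hχ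
  obtain ⟨n5, hn5⟩ := ic_aux_large (χW / 2) 3 hχ
  refine ⟨χW / 2, hχ, max (max (max n1 n2) (max n3 n4)) (max n5 1), fun n hn Ω β' _ P q t Tg hbd hTg => ?_⟩
  have g1 := hn1 n (by omega)
  have g2 := hn2 n (by omega)
  have g3 := hn3 n (by omega)
  have g4 := hn4 n (by omega)
  have g5 := hn5 n (by omega)
  have hn0 : 0 < n := by omega
  have hn0' : (0 : ℝ) < n := by exact_mod_cast hn0
  have hl2 : 0 < Real.log 2 := Real.log_pos (by norm_num)
  have hmi := ent_mi_nonneg P (icQ q n) Tg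
  set χ : ℝ := χW / 2 with hχdef
  have hbd' : IcBd (max A 2) q t := fun ω =>
    ⟨(hbd ω).1.trans (le_max_left _ _), (hbd ω).2.1.trans (le_max_left _ _), (hbd ω).2.2.trans (le_max_left _ _)⟩
  set E : Ω → Prop := fun ω => IcGood P (icX q) (fun _ => ()) β χ n ω ∧ IcGood P (icS t) (fun _ => ()) γ χ n ω ∧
          (σ - χ) * n * Real.log 2 ≤ P.surC (icQ q n) (pair (icX q n) (fun _ => ())) ω ∧
          P.surC (icU q t n) (pair Tg (fun _ => ())) ω < (σ + χ) * n * Real.log 2 with hE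
  by_contra hcon
  push Not at hcon
  have hmass : (P.mi (icQ q n) Tg + Real.log 2) / (2 * χ * n * Real.log 2) < P.pr E := by
    refine lt_of_le_of_lt ?_ hcon
    apply div_le_div_of_nonneg_left (by positivity) (by positivity)
    nlinarith [mul_pos (mul_pos hχ hn0') hl2]
  obtain ⟨G, M, hM, hT⟩ := ic_extest P q t (max A 2) γ χ (σ + χ) n hA' hbd' hγ.le hχ hn0 g2.le Tg hTg
    (fun ω => IcGood P (icX q) (fun _ => ()) β χ n ω ∧
      (σ - χ) * n * Real.log 2 ≤ P.surC (icQ q n) (pair (icX q n) (fun _ => ())) ω) E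
    (fun ω ω' h => by
      have hX : icX q n ω = icX q n ω' := congrArg Prod.fst h
      rw [ic_good_congr P (icX q) (fun _ => ()) β χ n (fun k hk ω ω' h' => ic_aux_X_nest q hk ω ω' h') hX rfl,
        ic_aux_sur_congr P (icQ q n) (pair (icX q n) (fun _ => ())) h (by unfold FLaw.pair; rw [hX])])
    (fun ω hω => ⟨⟨hω.1, hω.2.2.1⟩, hω.2.1, hω.2.2.2⟩) hmass
  have hρ0 : (0 : ℝ) < 2 ^ (-(n : ℝ)) := Real.rpow_pos_of_pos (by norm_num) _
  have hρ1 : (2 : ℝ) ^ (-(n : ℝ)) < ρ₁ := by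
    rw [Real.rpow_neg (by norm_num), inv_lt_comm₀ (by positivity) hρ₁, ← one_div]
    simpa using g1
  have e2χ : 2 * χ = χW := by rw [hχdef]; ring
  rw [e2χ] at hT
  have hFr : KfFrost (fun ω => if IcGood P (icX q) (fun _ => ()) β χ n ω then P.p ω else 0) (fun ω => (q ω).1)
      (((2 : ℝ) ^ (-(n : ℝ))) ^ (-χW)) β (2 ^ (-(n : ℝ))) := by
    refine ic_aux_frost_mono hρ0 ?_ (ic_frost1 P (fun ω => (q ω).1) β χ n hβ.le)
    rw [ic_aux_rho]
    have e : (2 : ℝ) ^ (-(-χW * n)) = 2 ^ (χ * n) * 2 ^ (χ * n) := by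
      rw [← Real.rpow_add (by norm_num)]
      congr 1
      rw [hχdef]
      ring
    rw [e]
    exact mul_le_mul_of_nonneg_right g3.le (Real.rpow_nonneg (by norm_num) _)
  have hfin := HW _ hρ0 hρ1 Ω Ω Ω _ _ q t G M (fun ω => if IcGood P (icX q) (fun _ => ()) β χ n ω then P.p ω else 0)
    (fun ω => (q ω).1) hT (fun j => by
      by_cases h : IcGood P (icX q) (fun _ => ()) β χ n j <;> simp [h, P.nonneg j]) hFr
    (fun z => by
      have := ic_aux_hU P q β σ χ (max A 2) n (le_max_right _ _) g5.le z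
      rw [e2χ] at this
      convert this)
  rw [ic_aux_rho] at hfin
  refine ic_aux_absurd (4 * max A 2 + 6) (σ + χ) χ M n (by positivity) (by positivity) g4 ?_ hM
  refine le_trans (le_of_eq ?_) hfin
  congr 1
  rw [hχdef]
  ring

/-- **SABC.**  Columns Frostman `β`, cells inside a column of mass `≤ 2^-(σ-χ)n`, slope Frostman `γ`, `σ < min(1, β+γ)`:
the intercept given the slope has score `≥ σ + χ`. -/
theorem ic_coreW (β γ σ A : ℝ) (hβ : 0 < β) (hγ : 0 < γ) (hσ0 : 0 ≤ σ) (hσ : σ < min 1 (β + γ)) (hA : 1 ≤ A) :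
    ∃ χ : ℝ, 0 < χ ∧ ∃ n₁ : ℕ, ∀ n : ℕ, n₁ ≤ n → ∀ (Ω δ β' : Type) [Fintype Ω] (P : FLaw Ω) (q : Ω → ℝ × ℝ) (t : Ω → ℝ)
      (D : Ω → δ) (Tg : Ω → β'), IcBd A q t → (∀ ω ω', Tg ω = Tg ω' → icS t n ω = icS t n ω') →
      P.pr (fun ω => IcGood P (icX q) D β χ n ω ∧ IcGood P (icS t) D γ χ n ω ∧
          (σ - χ) * n * Real.log 2 ≤ P.surC (icQ q n) (pair (icX q n) D) ω ∧
          P.surC (icU q t n) (pair Tg D) ω < (σ + χ) * n * Real.log 2)
        ≤ (P.miC (icQ q n) Tg D + Real.log 2) / (χ * n * Real.log 2) := by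
  obtain ⟨χ, hχ, n₁, H⟩ := ic_coreW0 β γ σ A hβ hγ hσ0 hσ hA
  refine ⟨χ, hχ, max n₁ 1, fun n hn Ω δ β' _ P q t D Tg hbd hTg => ?_⟩
  have hn0 : (0 : ℝ) < n := by
    have : 0 < n := by omega
    exact_mod_cast this
  have hl2 : 0 < Real.log 2 := Real.log_pos (by norm_num)
  refine ic_lift P D (icQ q n) Tg
    (fun Q ω => IcGood Q (icX q) (fun _ => ()) β χ n ω ∧ IcGood Q (icS t) (fun _ => ()) γ χ n ω ∧
          (σ - χ) * n * Real.log 2 ≤ Q.surC (icQ q n) (pair (icX q n) (fun _ => ())) ω ∧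
          Q.surC (icU q t n) (pair Tg (fun _ => ())) ω < (σ + χ) * n * Real.log 2) _ _ (by positivity)
    (fun ω₀ _ => H n (by omega) Ω β' (P.cfib D ω₀) q t Tg hbd hTg) ?_
  intro ω₀ ω _ hω hD hE
  obtain ⟨h1, h2, h3, h4⟩ := hE
  refine ⟨fun k hk => ?_, fun k hk => ?_, ?_, ?_⟩
  · rw [ic_sur_fib0 P _ D hω hD]
    exact h1 k hk
  · rw [ic_sur_fib0 P _ D hω hD]
    exact h2 k hk
  · rw [ic_sur_fib P _ _ D hω hD]
    exact h3
  · rw [ic_sur_fib P _ _ D hω hD]
    exact h4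

end Claimed.Agent.R256
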