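import Claimed.Agent.R256.Inc.CoreA2

/-!
# Row 256, unit INC, dictionary finite laws -> `ExTest` / `KfFrost`, leaf A3.       (architect helper157)
Plan: header of `Inc/Core.lean`.  Statements FROZEN (ask helper157); provers edit only bodies and may add auxiliary lemmas with the prefix `ic_aux_`.
-/

set_option autoImplicit false

namespace Claimed.Agent.R256

open Claimed.Agent.R255 Claimed.Agent.R255.FLaw Claimed.Agent.RW
open Classical

variable {Ω : Type} [Fintype Ω] {α β γ δ : Type}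

/-! ## A3. Frostman conditions -/

/-- the dyadic scale of a radius -/
theorem ic_aux_scale (n : ℕ) (r : ℝ) (h1 : 1 / 2 ^ n ≤ r) (h2 : r ≤ 1) :
    ∃ k ≤ n, r ≤ 1 / 2 ^ k ∧ (1 : ℝ) / 2 ^ k ≤ 2 * r := by
  induction n with
  | zero =>
    refine ⟨0, le_rfl, by simpa using h2, ?_⟩
    simp only [pow_zero, div_one] at h1 ⊢
    linarith
  | succ n ih =>
    by_cases h : 1 / 2 ^ n ≤ r
    · obtain ⟨k, hk, h3, h4⟩ := ih h
      exact ⟨k, hk.trans (Nat.le_succ n), h3, h4⟩
    · refine ⟨n, Nat.le_succ n, (not_le.1 h).le, ?_⟩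
      have e : (1 : ℝ) / 2 ^ n = 2 * (1 / 2 ^ (n + 1)) := by
        rw [pow_succ]
        field_simp
      rw [e]
      linarith

/-- the abstract Frostman bound: a ball of radius `2^-k` meets at most `N` names of level `k` -/
theorem ic_aux_frost {Y : Type} [PseudoMetricSpace Y] (P : FLaw Ω) (X : ℕ → Ω → α) (pos : Ω → Y) (e η : ℝ) (n N : ℕ)
    (he : 0 ≤ e)
    (hcov : ∀ (k : ℕ) (z : Y), ∃ T : Finset α, T.card ≤ N ∧ ∀ ω, dist (pos ω) z ≤ 1 / 2 ^ k → X k ω ∈ T) :
    KfFrost (fun ω => if IcGood P X (fun _ => ()) e η n ω then P.p ω else 0) pos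
      (N * 2 ^ e * 2 ^ (η * n)) e (2 ^ (-(n : ℝ))) := by
  intro z r hr1 hr2
  rw [Real.rpow_neg (by norm_num), Real.rpow_natCast, ← one_div] at hr1
  have hr0 : 0 < r := lt_of_lt_of_le (by positivity) hr1
  obtain ⟨k, hk, h3, h4⟩ := ic_aux_scale n r hr1 hr2
  obtain ⟨T, hT, hmem⟩ := hcov k z
  set w : Ω → ℝ := fun ω => if IcGood P X (fun _ => ()) e η n ω then P.p ω else 0 with hw
  have hw0 : ∀ ω, 0 ≤ w ω := by
    intro ω
    simp only [hw]
    split_ifs
    exacts [P.nonneg ω, le_rfl]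
  have hwp : ∀ ω, w ω ≤ P.p ω := by
    intro ω
    simp only [hw]
    split_ifs
    exacts [le_rfl, P.nonneg ω]
  set s : Finset Ω := Finset.univ.filter fun i => dist (pos i) z ≤ r with hs
  have hmaps : ∀ ω ∈ s, X k ω ∈ T := by
    intro ω hω
    exact hmem ω ((Finset.mem_filter.1 hω).2.trans h3)
  rw [← Finset.sum_fiberwise_of_maps_to hmaps]
  have hB : ∀ c ∈ T, ∑ ω ∈ s with X k ω = c, w ω ≤ 2 ^ (η * n - e * k) := by
    intro c _
    by_cases hex : ∃ ω₀ ∈ s.filter (fun ω => X k ω = c), w ω₀ ≠ 0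
    · obtain ⟨ω₀, hω₀, hne⟩ := hex
      have hc : X k ω₀ = c := (Finset.mem_filter.1 hω₀).2
      have hgood : IcGood P X (fun _ => ()) e η n ω₀ := by
        by_contra hg
        exact hne (by simp only [hw]; rw [if_neg hg])
      have hp : P.p ω₀ ≠ 0 := by
        intro h0
        exact hne (le_antisymm ((hwp ω₀).trans h0.le) (hw0 ω₀))
      have h5 : ∑ ω ∈ s with X k ω = c, w ω ≤ P.fib (X k) ω₀ := by
        refine (Finset.sum_le_sum fun ω _ => hwp ω).trans ?_
        have e5 : P.fib (X k) ω₀ = ∑ ω ∈ Finset.univ.filter (fun ω => X k ω = c), P.p ω := by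
          unfold FLaw.fib FLaw.pr
          rw [Finset.sum_filter, hc]
        rw [e5]
        refine Finset.sum_le_sum_of_subset_of_nonneg (fun ω hω => ?_) fun ω _ _ => P.nonneg ω
        exact Finset.mem_filter.2 ⟨Finset.mem_univ _, (Finset.mem_filter.1 hω).2⟩
      refine h5.trans ?_
      rw [ic_fib_of_sur P (X k) hp, Real.rpow_def_of_pos (by norm_num)]
      refine Real.exp_le_exp.2 ?_
      have := hgood k hk
      linarith
    · push Not at hex
      rw [Finset.sum_eq_zero hex]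
      positivity
  refine (Finset.sum_le_sum hB).trans ?_
  rw [Finset.sum_const, nsmul_eq_mul]
  have h6 : (2 : ℝ) ^ (η * n - e * k) = 2 ^ (η * n) * (1 / 2 ^ k) ^ e := by
    rw [Real.rpow_sub (by norm_num), one_div, Real.inv_rpow (by positivity), ← Real.rpow_natCast,
      ← Real.rpow_mul (by norm_num), mul_comm e, div_eq_mul_inv]
  have h7 : ((1 : ℝ) / 2 ^ k) ^ e ≤ 2 ^ e * r ^ e := by
    rw [← Real.mul_rpow (by norm_num) hr0.le]
    exact Real.rpow_le_rpow (by positivity) h4 he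
  rw [h6]
  calc (T.card : ℝ) * (2 ^ (η * n) * (1 / 2 ^ k) ^ e) ≤ (N : ℝ) * (2 ^ (η * n) * (2 ^ e * r ^ e)) := by
        refine mul_le_mul (by exact_mod_cast hT) (mul_le_mul_of_nonneg_left h7 (by positivity)) (by positivity)
          (by positivity)
    _ = N * 2 ^ e * 2 ^ (η * n) * r ^ e := by ring

/-- three cells on the line -/
theorem ic_aux_three (k : ℕ) (x z : ℝ) (h : |x - z| ≤ 1 / 2 ^ k) :
    icCell k x ∈ Finset.Icc (icCell k z - 1) (icCell k z + 1) := by
  have h1 := ic_cell_near (k := k) (x := x) (y := z) 1 (by simpa using h)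
  rw [abs_le] at h1
  rw [Finset.mem_Icc]
  obtain ⟨h2, h3⟩ := h1
  push_cast at h2 h3
  constructor <;> linarith

/-- planar: a ball of radius `r ∈ (2^-(k+1), 2^-k]` meets at most 9 cells of level `k` -/
theorem ic_frost2 (P : FLaw Ω) (q : Ω → ℝ × ℝ) (d η : ℝ) (n : ℕ) (hd : 0 ≤ d) :
    KfFrost (fun ω => if IcGood P (icQ q) (fun _ => ()) d η n ω then P.p ω else 0) q
      (9 * 2 ^ d * 2 ^ (η * n)) d (2 ^ (-(n : ℝ))) := by
  have h := ic_aux_frost P (icQ q) q d η n 9 hd (fun k z => ?_)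
  · simpa using h
  · refine ⟨Finset.Icc (icCell k z.1 - 1) (icCell k z.1 + 1) ×ˢ Finset.Icc (icCell k z.2 - 1) (icCell k z.2 + 1), ?_,
      fun ω hω => ?_⟩
    · rw [Finset.card_product, Int.card_Icc, Int.card_Icc]
      have e1 : icCell k z.1 + 1 + 1 - (icCell k z.1 - 1) = 3 := by ring
      have e2 : icCell k z.2 + 1 + 1 - (icCell k z.2 - 1) = 3 := by ring
      rw [e1, e2]
      decide
    · rw [Prod.dist_eq, max_le_iff, Real.dist_eq, Real.dist_eq] at hω
      exact Finset.mem_product.2 ⟨ic_aux_three k _ _ hω.1, ic_aux_three k _ _ hω.2⟩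

/-- linear: at most 3 cells -/
theorem ic_frost1 (P : FLaw Ω) (x : Ω → ℝ) (e η : ℝ) (n : ℕ) (he : 0 ≤ e) :
    KfFrost (fun ω => if IcGood P (fun k ω => icCell k (x ω)) (fun _ => ()) e η n ω then P.p ω else 0) x
      (3 * 2 ^ e * 2 ^ (η * n)) e (2 ^ (-(n : ℝ))) := by
  have h := ic_aux_frost P (fun k ω => icCell k (x ω)) x e η n 3 he (fun k z => ?_)
  · simpa using h
  · refine ⟨Finset.Icc (icCell k z - 1) (icCell k z + 1), ?_, fun ω hω => ?_⟩
    · rw [Int.card_Icc]
      have e1 : icCell k z + 1 + 1 - (icCell k z - 1) = 3 := by ring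
      rw [e1]
      decide
    · rw [Real.dist_eq] at hω
      exact ic_aux_three k _ _ hω

end Claimed.Agent.R256
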