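import Claimed.Agent.R256.Inc.Defs
import Claimed.Agent.R255.Ent.Prod

/-!
# Row 256, unit INC, dictionary finite laws -> `ExTest` / `KfFrost`, leaf A4.       (architect helper157)
Plan: header of `Inc/Core.lean`.  Statements FROZEN (ask helper157); provers edit only bodies and may add auxiliary lemmas with the prefix `ic_aux_`.
-/

set_option autoImplicit false

namespace Claimed.Agent.R256

open Claimed.Agent.R255 Claimed.Agent.R255.FLaw Claimed.Agent.RW
open Classical

variable {Ω : Type} [Fintype Ω] {α β γ δ : Type}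

/-! ## A4. product mass of a relation from the mutual information -/

/-- the product mass of a relation, summed over values -/
theorem ic_aux_rel_sum (P : FLaw Ω) (X : Ω → α) (Y : Ω → β) (Rel : α → β → Prop) (S : Finset (α × β)) :
    ∑ x ∈ S, (if Rel x.1 x.2 then P.wt X x.1 * P.wt Y x.2 else 0)
      ≤ ∑ ω, ∑ ω', (if Rel (X ω) (Y ω') then P.p ω * P.p ω' else 0) := by
  have e : ∀ x : α × β, (if Rel x.1 x.2 then P.wt X x.1 * P.wt Y x.2 else 0)
      = ∑ ω, ∑ ω', (if x = (X ω, Y ω') then (if Rel (X ω) (Y ω') then P.p ω * P.p ω' else 0) else 0) := by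
    intro x
    by_cases hR : Rel x.1 x.2
    · rw [if_pos hR]
      unfold FLaw.wt FLaw.pr
      rw [Finset.sum_mul_sum]
      refine Finset.sum_congr rfl fun ω _ => Finset.sum_congr rfl fun ω' _ => ?_
      by_cases h1 : X ω = x.1
      · by_cases h2 : Y ω' = x.2
        · have hx : x = (X ω, Y ω') := by rw [h1, h2]
          rw [if_pos h1, if_pos h2, if_pos hx, if_pos (by rw [h1, h2]; exact hR)]
        · have hx : x ≠ (X ω, Y ω') := fun h => h2 (by rw [h])
          rw [if_neg h2, if_neg hx, mul_zero]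
      · have hx : x ≠ (X ω, Y ω') := fun h => h1 (by rw [h])
        rw [if_neg h1, if_neg hx, zero_mul]
    · rw [if_neg hR]
      symm
      refine Finset.sum_eq_zero fun ω _ => Finset.sum_eq_zero fun ω' _ => ?_
      by_cases hx : x = (X ω, Y ω')
      · rw [if_pos hx, if_neg (by rw [hx] at hR; exact hR)]
      · rw [if_neg hx]
  simp only [e]
  rw [Finset.sum_comm]
  refine Finset.sum_le_sum fun ω _ => ?_
  rw [Finset.sum_comm]
  refine Finset.sum_le_sum fun ω' _ => ?_
  rw [Finset.sum_ite_eq']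
  split_ifs
  · exact le_rfl
  · exact le_rfl
  · exact mul_nonneg (P.nonneg _) (P.nonneg _)
  · exact le_rfl

/-- `kl(joint ‖ product) = mi`; data processing onto the indicator of `Rel`; `kl(p ‖ π) ≥ p log (1/π) - log 2`. -/
theorem ic_prod_mass (P : FLaw Ω) (X : Ω → α) (Y : Ω → β) (Rel : α → β → Prop)
    (hp : 0 < P.pr (fun ω => Rel (X ω) (Y ω))) :
    Real.exp (- ((P.mi X Y + Real.log 2) / P.pr (fun ω => Rel (X ω) (Y ω))))
      ≤ ∑ ω, ∑ ω', (if Rel (X ω) (Y ω') then P.p ω * P.p ω' else 0) := by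
  obtain ⟨m, hm⟩ : ∃ m : ℝ, m = ∑ ω, ∑ ω', (if Rel (X ω) (Y ω') then P.p ω * P.p ω' else 0) := ⟨_, rfl⟩
  rw [← hm]
  have hnn : ∀ ω ω', 0 ≤ (if Rel (X ω) (Y ω') then P.p ω * P.p ω' else 0) := by
    intro ω ω'
    split_ifs
    exacts [mul_nonneg (P.nonneg _) (P.nonneg _), le_rfl]
  have hmpos : 0 < m := by
    obtain ⟨ω, hR, hω⟩ := (ent_pr_pos_iff P _).1 hp
    have hpω : 0 < P.p ω := lt_of_le_of_ne (P.nonneg ω) (Ne.symm hω)
    calc 0 < P.p ω * P.p ω := mul_pos hpω hpω
      _ = (if Rel (X ω) (Y ω) then P.p ω * P.p ω else 0) := by rw [if_pos hR]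
      _ ≤ ∑ ω', (if Rel (X ω) (Y ω') then P.p ω * P.p ω' else 0) :=
          Finset.single_le_sum (f := fun ω' => if Rel (X ω) (Y ω') then P.p ω * P.p ω' else 0)
            (fun ω' _ => hnn ω ω') (Finset.mem_univ ω)
      _ ≤ m := by
          rw [hm]
          exact Finset.single_le_sum (f := fun ω => ∑ ω', if Rel (X ω) (Y ω') then P.p ω * P.p ω' else 0)
            (fun ω _ => Finset.sum_nonneg fun ω' _ => hnn ω ω') (Finset.mem_univ ω)
  -- the comparison weight
  let q : α × β → ℝ := fun x => P.wt X x.1 * P.wt Y x.2 * (if Rel x.1 x.2 then m⁻¹ else 1) / 2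
  have hW := ent_isW_prod (ent_wt_isW P X) (ent_wt_isW P Y)
  have hq0 : ∀ x, 0 ≤ q x := by
    intro x
    have h1 := hW.1 x
    have h2 : 0 ≤ (if Rel x.1 x.2 then m⁻¹ else 1) := by
      split_ifs
      exacts [(inv_pos.2 hmpos).le, zero_le_one]
    exact div_nonneg (mul_nonneg h1 h2) (by norm_num)
  have hqs : ∀ S : Finset (α × β), ∑ x ∈ S, q x ≤ 1 := by
    intro S
    have h1 : ∀ x ∈ S, q x ≤ (m⁻¹ * (if Rel x.1 x.2 then P.wt X x.1 * P.wt Y x.2 else 0) + P.wt X x.1 * P.wt Y x.2) / 2 := by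
      intro x _
      have h0 := hW.1 x
      simp only at h0
      show P.wt X x.1 * P.wt Y x.2 * (if Rel x.1 x.2 then m⁻¹ else 1) / 2 ≤ _
      split_ifs
      · have : 0 ≤ m⁻¹ := (inv_pos.2 hmpos).le
        nlinarith
      · linarith
    refine (Finset.sum_le_sum h1).trans ?_
    rw [← Finset.sum_div, Finset.sum_add_distrib, ← Finset.mul_sum]
    have h2 := ic_aux_rel_sum P X Y Rel S
    rw [← hm] at h2
    have h3 := hW.2 S
    have h4 : m⁻¹ * ∑ x ∈ S, (if Rel x.1 x.2 then P.wt X x.1 * P.wt Y x.2 else 0) ≤ 1 := by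
      calc _ ≤ m⁻¹ * m := mul_le_mul_of_nonneg_left h2 (inv_pos.2 hmpos).le
        _ = 1 := inv_mul_cancel₀ hmpos.ne'
    linarith
  have hqpos : ∀ ω, P.p ω ≠ 0 → 0 < q (pair X Y ω) := by
    intro ω hω
    have h1 : 0 < P.wt X (X ω) := ent_fib_pos P X hω
    have h2 : 0 < P.wt Y (Y ω) := ent_fib_pos P Y hω
    have h3 : 0 < (if Rel (X ω) (Y ω) then m⁻¹ else 1) := by
      split_ifs
      exacts [inv_pos.2 hmpos, zero_lt_one]
    exact div_pos (mul_pos (mul_pos h1 h2) h3) (by norm_num)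
  have hg := ent_gibbs P (pair X Y) q hq0 hqs hqpos
  have he : P.ev (fun ω => - Real.log (q (pair X Y ω)))
      = P.ent X + P.ent Y + Real.log m * P.pr (fun ω => Rel (X ω) (Y ω)) + Real.log 2 := by
    have h1 : P.ev (fun ω => - Real.log (q (pair X Y ω)))
        = P.ev (fun ω => ((- Real.log (P.fib X ω) + - Real.log (P.fib Y ω))
            + Real.log m * (if Rel (X ω) (Y ω) then 1 else 0)) + Real.log 2) := by
      refine ent_ev_congr P fun ω hω => ?_
      have a1 : 0 < P.fib X ω := ent_fib_pos P X hω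
      have a2 : 0 < P.fib Y ω := ent_fib_pos P Y hω
      show - Real.log (P.fib X ω * P.fib Y ω * (if Rel (X ω) (Y ω) then m⁻¹ else 1) / 2) = _
      split_ifs
      · rw [Real.log_div (by positivity) (by norm_num), Real.log_mul (by positivity) (by positivity),
          Real.log_mul a1.ne' a2.ne', Real.log_inv]
        ring
      · rw [Real.log_div (by positivity) (by norm_num), mul_one, Real.log_mul a1.ne' a2.ne']
        ring
    rw [h1, ent_ev_add, ent_ev_add, ent_ev_add, ent_ev_const, ent_ev_mul_left, ← ent_pr_eq_ev]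
    rfl
  rw [he] at hg
  have hmi : - Real.log m * P.pr (fun ω => Rel (X ω) (Y ω)) ≤ P.mi X Y + Real.log 2 := by
    unfold FLaw.mi
    linarith
  rw [← Real.exp_log hmpos]
  refine Real.exp_le_exp.2 ?_
  rw [neg_le, div_eq_mul_inv] 
  rw [← div_eq_mul_inv, le_div_iff₀ hp]
  exact hmi

end Claimed.Agent.R256
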