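import Claimed.Agent.R256.Inc.CoreA2

/-!
# Row 256, unit INC, dictionary finite laws -> `ExTest` / `KfFrost`, leaf A5.       (architect helper157)
Plan: header of `Inc/Core.lean`.  Statements FROZEN (ask helper157); provers edit only bodies and may add auxiliary lemmas with the prefix `ic_aux_`.
-/

set_option autoImplicit false

namespace Claimed.Agent.R256

open Claimed.Agent.R255 Claimed.Agent.R255.FLaw Claimed.Agent.RW
open Classical

variable {Ω : Type} [Fintype Ω] {α β γ δ : Type}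

/-! ## A5. covering by the popular cells.   `Tg` = TAG: any name that determines the slope cell `icS t n` (e.g. `icS t n` itself, or a finer record). -/

theorem ic_aux_pop_card (P : FLaw Ω) (U : Ω → ℤ) (X : Ω → β) (x : β) (L : ℝ) (E : Ω → Prop)
    (hE : ∀ ω, E ω → P.surC U X ω < L) :
    (((Finset.univ.filter fun ω₂ => E ω₂ ∧ P.p ω₂ ≠ 0 ∧ X ω₂ = x).image U).card : ℝ) ≤ Real.exp L := by
  rcases ((Finset.univ.filter fun ω₂ => E ω₂ ∧ P.p ω₂ ≠ 0 ∧ X ω₂ = x).image U).eq_empty_or_nonempty with h0 | hne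
  · rw [h0, Finset.card_empty, Nat.cast_zero]
    exact (Real.exp_pos _).le
  · obtain ⟨z, hz⟩ := hne
    obtain ⟨ω₀, hω₀, -⟩ := Finset.mem_image.1 hz
    have h₀ := (Finset.mem_filter.1 hω₀).2
    have hx : 0 < P.pr (fun ω => X ω = x) := (ent_pr_pos_iff P _).2 ⟨ω₀, h₀.2.2, h₀.2.1⟩
    have key := ent_count P X U x ((Finset.univ.filter fun ω₂ => E ω₂ ∧ P.p ω₂ ≠ 0 ∧ X ω₂ = x).image U)
      (c := Real.exp (-L)) (Real.exp_pos _) hx ?_
    · rwa [one_div, ← Real.exp_neg, neg_neg] at key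
    · intro y hy
      obtain ⟨ω₂, hω₂, rfl⟩ := Finset.mem_image.1 hy
      obtain ⟨-, h1, h2, h3⟩ := Finset.mem_filter.1 hω₂
      have e := ent_exp_neg_surC P U X h2
      have hfX : P.fib X ω₂ = P.pr (fun ω => X ω = x) := by
        unfold FLaw.fib
        rw [h3]
      have hfp : P.fib (pair U X) ω₂ = P.pr (fun ω => U ω = U ω₂ ∧ X ω = x) := by
        rw [ent_fib_pair, h3]
      rw [hfX, hfp] at e
      have hlt : Real.exp (-L) ≤ Real.exp (- P.surC U X ω₂) := Real.exp_le_exp.2 (by linarith [hE ω₂ h1])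
      rw [e, le_div_iff₀ hx] at hlt
      exact hlt

theorem ic_aux_pop_exists (P : FLaw Ω) (U : Ω → ℤ) (X : Ω → β) (x : β) (L : ℝ) (E : Ω → Prop)
    (hE : ∀ ω, E ω → P.surC U X ω < L) :
    ∃ Pop : Finset ℤ, (Pop.card : ℝ) ≤ Real.exp L ∧ ∀ ω₂, E ω₂ → P.p ω₂ ≠ 0 → X ω₂ = x → U ω₂ ∈ Pop :=
  ⟨_, ic_aux_pop_card P U X x L E hE, fun ω₂ h1 h2 h3 =>
    Finset.mem_image.2 ⟨ω₂, Finset.mem_filter.2 ⟨Finset.mem_univ _, h1, h2, h3⟩, rfl⟩⟩

theorem ic_aux_cov_card (Pop : Finset ℤ) (m n : ℕ) :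
    ((Pop.biUnion fun z => (Finset.Icc (z - m) (z + m)).image fun i : ℤ => (i : ℝ) / 2 ^ n).card : ℝ)
      ≤ Pop.card * (2 * m + 1) := by
  have h2 : ∀ z : ℤ, ((Finset.Icc (z - m) (z + m)).image fun i : ℤ => (i : ℝ) / 2 ^ n).card ≤ 2 * m + 1 := by
    intro z
    refine Finset.card_image_le.trans ?_
    rw [Int.card_Icc]
    omega
  have h3 := (Finset.card_biUnion_le (s := Pop)
    (t := fun z => (Finset.Icc (z - m) (z + m)).image fun i : ℤ => (i : ℝ) / 2 ^ n)).trans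
    (Finset.sum_le_card_nsmul _ _ (2 * m + 1) fun z _ => h2 z)
  rw [smul_eq_mul] at h3
  exact_mod_cast h3

omit [Fintype Ω] in
theorem ic_aux_proj_dist (q : Ω → ℝ × ℝ) (t : Ω → ℝ) (A : ℝ) (hbd : IcBd A q t) (n : ℕ) {ω ω' ω₂ : Ω}
    (hQ : icQ q n ω₂ = icQ q n ω) (hS : icS t n ω₂ = icS t n ω') :
    |kfProj (t ω') (q ω) - icW q t ω₂| ≤ (1 + 2 * A) / 2 ^ n := by
  have hQ1 : icCell n (q ω₂).1 = icCell n (q ω).1 := congrArg Prod.fst hQ
  have hQ2 : icCell n (q ω₂).2 = icCell n (q ω).2 := congrArg Prod.snd hQ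
  have d1 := ic_cell_dist hQ1
  have d2 := ic_cell_dist hQ2
  have d3 := ic_cell_dist (show icCell n (t ω₂) = icCell n (t ω') from hS)
  have hρ : (0 : ℝ) ≤ 1 / 2 ^ n := by positivity
  have b1 : |t ω'| ≤ A := (hbd ω').2.2
  have b2 : |(q ω₂).1| ≤ A := (hbd ω₂).1
  have hA0 : 0 ≤ A := (abs_nonneg _).trans b1
  have e : kfProj (t ω') (q ω) - icW q t ω₂
      = -((q ω₂).2 - (q ω).2) + t ω' * ((q ω₂).1 - (q ω).1) + (t ω₂ - t ω') * (q ω₂).1 := by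
    unfold kfProj icW
    ring
  have m1 : |t ω' * ((q ω₂).1 - (q ω).1)| ≤ A * (1 / 2 ^ n) := by
    rw [abs_mul]
    exact mul_le_mul b1 d1 (abs_nonneg _) hA0
  have m2 : |(t ω₂ - t ω') * (q ω₂).1| ≤ (1 / 2 ^ n) * A := by
    rw [abs_mul]
    exact mul_le_mul d3 b2 (abs_nonneg _) hρ
  rw [e]
  have s1 := abs_add_le (-((q ω₂).2 - (q ω).2) + t ω' * ((q ω₂).1 - (q ω).1)) ((t ω₂ - t ω') * (q ω₂).1)
  have s2 := abs_add_le (-((q ω₂).2 - (q ω).2)) (t ω' * ((q ω₂).1 - (q ω).1))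
  rw [abs_neg] at s2
  have : (1 + 2 * A) / 2 ^ n = 1 / 2 ^ n + A * (1 / 2 ^ n) + (1 / 2 ^ n) * A := by ring
  rw [this]
  linarith

theorem ic_pop_cover (P : FLaw Ω) (q : Ω → ℝ × ℝ) (t : Ω → ℝ) (A : ℝ) (hA : 1 ≤ A) (hbd : IcBd A q t) (n : ℕ) (u : ℝ)
    (Tg : Ω → β) (hTg : ∀ ω ω', Tg ω = Tg ω' → icS t n ω = icS t n ω') (E : Ω → Prop)
    (hE : ∀ ω, E ω → P.surC (icU q t n) (pair Tg (fun _ => ())) ω < u * n * Real.log 2) :
    ∃ cov : Ω → Finset ℝ, (∀ ω', ((cov ω').card : ℝ) ≤ (4 * A + 6) * 2 ^ (u * n)) ∧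
      ∀ ω ω' ω₂, E ω₂ → P.p ω₂ ≠ 0 → icQ q n ω₂ = icQ q n ω → Tg ω₂ = Tg ω' →
        ∃ e ∈ cov ω', e ≤ kfProj (t ω') (q ω) ∧ kfProj (t ω') (q ω) ≤ e + 2 ^ (-(n : ℝ)) := by
  obtain ⟨m, hm1, hm2⟩ : ∃ m : ℕ, 1 + 2 * A ≤ m ∧ (m : ℝ) ≤ 2 + 2 * A :=
    ⟨⌈1 + 2 * A⌉₊, Nat.le_ceil _, (Nat.ceil_lt_add_one (by linarith)).le.trans (by linarith)⟩
  have hex := fun ω' : Ω => ic_aux_pop_exists P (icU q t n) (pair Tg (fun _ => ())) (Tg ω', ())
    (u * n * Real.log 2) E hE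
  choose Pop hcard hmem using hex
  refine ⟨fun ω' => (Pop ω').biUnion
        fun z => (Finset.Icc (z - m) (z + m)).image fun i : ℤ => (i : ℝ) / 2 ^ n, ?_, ?_⟩
  · intro ω'
    have h4 := hcard ω'
    have hexp : Real.exp (u * n * Real.log 2) = 2 ^ (u * n) := by
      rw [Real.rpow_def_of_pos (by norm_num : (0 : ℝ) < 2)]
      congr 1
      ring
    rw [hexp] at h4
    have h5 : (0 : ℝ) ≤ 2 ^ (u * n) := by positivity
    refine (ic_aux_cov_card _ m n).trans ?_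
    calc ((Pop ω').card : ℝ) * (2 * m + 1) ≤ 2 ^ (u * n) * (4 * A + 6) := mul_le_mul h4 (by linarith) (by positivity) h5
      _ = (4 * A + 6) * 2 ^ (u * n) := by ring
  · intro ω ω' ω₂ hE2 hp hQ hS
    have hd := (ic_aux_proj_dist q t A hbd n hQ (hTg _ _ hS)).trans
      (div_le_div_of_nonneg_right hm1 (by positivity : (0 : ℝ) ≤ 2 ^ n))
    have hnear := ic_cell_near m hd
    refine ⟨(icCell n (kfProj (t ω') (q ω)) : ℝ) / 2 ^ n, ?_, ic_cell_le n _, ?_⟩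
    · refine Finset.mem_biUnion.2 ⟨icU q t n ω₂, hmem ω' ω₂ hE2 hp ?_,
        Finset.mem_image.2 ⟨icCell n (kfProj (t ω') (q ω)), Finset.mem_Icc.2 ?_, rfl⟩⟩
      · show (Tg ω₂, ()) = (Tg ω', ())
        rw [hS]
      · rw [abs_le] at hnear
        have e : icU q t n ω₂ = icCell n (icW q t ω₂) := rfl
        rw [e]
        constructor <;> linarith [hnear.1, hnear.2]
    · have h1 := (ic_cell_lt n (kfProj (t ω') (q ω))).le
      rw [add_div] at h1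
      have e : (2 : ℝ) ^ (-(n : ℝ)) = 1 / 2 ^ n := by
        rw [Real.rpow_neg (by norm_num), Real.rpow_natCast, one_div]
      rw [e]
      exact h1

end Claimed.Agent.R256
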