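import Claimed.Agent.R256.Inc.CoreA3
import Claimed.Agent.R256.Inc.CoreA4
import Claimed.Agent.R256.Inc.CoreA5

/-!
# Row 256, unit INC, dictionary finite laws -> `ExTest` / `KfFrost`, leaf A6.       (architect helper157)
Plan: header of `Inc/Core.lean`.  Statements FROZEN (ask helper157); provers edit only bodies and may add auxiliary lemmas with the prefix `ic_aux_`.
-/

set_option autoImplicit false

namespace Claimed.Agent.R256

open Claimed.Agent.R255 Claimed.Agent.R255.FLaw Claimed.Agent.RW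
open Classical

variable {Ω : Type} [Fintype Ω] {α β γ δ : Type}

/-! ## A6. the common part of the two tests -/

theorem ic_extest (P : FLaw Ω) (q : Ω → ℝ × ℝ) (t : Ω → ℝ) (A s η u : ℝ) (n : ℕ) (hA : 1 ≤ A) (hbd : IcBd A q t)
    (hs : 0 ≤ s) (hη : 0 < η) (hn0 : 0 < n) (hn : 3 * 2 ^ s ≤ (2 : ℝ) ^ (η * n))
    (Tg : Ω → β) (hTg : ∀ ω ω', Tg ω = Tg ω' → icS t n ω = icS t n ω') (GQ E : Ω → Prop)
    (hGQ : ∀ ω ω', icQ q n ω = icQ q n ω' → (GQ ω ↔ GQ ω'))
    (hE : ∀ ω, E ω → GQ ω ∧ IcGood P (icS t) (fun _ => ()) s η n ω ∧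
      P.surC (icU q t n) (pair Tg (fun _ => ())) ω < u * n * Real.log 2)
    (hmass : (P.mi (icQ q n) Tg + Real.log 2) / (2 * η * n * Real.log 2) < P.pr E) :
    ∃ (G : Finset (Ω × Ω)) (M : ℕ), (M : ℝ) ≤ (4 * A + 6) * 2 ^ (u * n) + 1 ∧
      ExTest (2 ^ (-(n : ℝ))) (2 * η) A s (fun ω => if GQ ω then P.p ω else 0)
        (fun ω => if IcGood P (icS t) (fun _ => ()) s η n ω then P.p ω else 0) q t G M := by
  have hl2 : 0 < Real.log 2 := Real.log_pos (by norm_num)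
  have hnR : (0 : ℝ) < n := by exact_mod_cast hn0
  have hden : 0 < 2 * η * n * Real.log 2 := by positivity
  have hρ0 : (0 : ℝ) < 2 ^ (-(n : ℝ)) := Real.rpow_pos_of_pos (by norm_num) _
  -- the relation between cells
  let Rel : ℤ × ℤ → β → Prop := fun a b => ∃ ω₂, E ω₂ ∧ P.p ω₂ ≠ 0 ∧ icQ q n ω₂ = a ∧ Tg ω₂ = b
  obtain ⟨cov, hcard, hcov⟩ := ic_pop_cover P q t A hA hbd n u Tg hTg E (fun ω h => (hE ω h).2.2)
  have hx0 : 0 ≤ (4 * A + 6) * (2 : ℝ) ^ (u * n) :=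
    mul_nonneg (by linarith) (Real.rpow_nonneg (by norm_num) _)
  refine ⟨Finset.univ.filter (fun p : Ω × Ω => Rel (icQ q n p.1) (Tg p.2)), ⌈(4 * A + 6) * (2 : ℝ) ^ (u * n)⌉₊,
    (Nat.ceil_lt_add_one hx0).le, ?_, ?_, ?_, ?_, ?_, ?_, ?_, ?_, cov, ?_, ?_⟩
  · intro x; dsimp only; split_ifs; exacts [P.nonneg x, le_rfl]
  · intro x; dsimp only; split_ifs; exacts [P.nonneg x, le_rfl]
  · exact ent_pr_le_one P GQ
  · exact ent_pr_le_one P _
  · exact fun x => ⟨(hbd x).1, (hbd x).2.1⟩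
  · exact fun x => (hbd x).2.2
  · -- Frostman condition of the slopes
    have hF := ic_frost1 P t s η n hs
    intro z r hr1 hr2
    refine (hF z r hr1 hr2).trans ?_
    have hr0 : 0 < r := lt_of_lt_of_le hρ0 hr1
    refine mul_le_mul_of_nonneg_right ?_ (Real.rpow_nonneg hr0.le _)
    have e1 : ((2 : ℝ) ^ (-(n : ℝ))) ^ (-(2 * η)) = 2 ^ (η * n) * 2 ^ (η * n) := by
      rw [← Real.rpow_mul (by norm_num), ← Real.rpow_add (by norm_num)]
      congr 1
      ring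
    rw [e1]
    exact mul_le_mul_of_nonneg_right hn (Real.rpow_nonneg (by norm_num) _)
  · -- product mass
    have hmi : 0 ≤ P.mi (icQ q n) Tg := ent_mi_nonneg P _ _
    have hp0 : 0 < P.pr E := lt_of_le_of_lt (div_nonneg (by linarith) hden.le) hmass
    have hle : P.pr E ≤ P.pr (fun ω => Rel (icQ q n ω) (Tg ω)) :=
      ent_pr_mono P fun ω hω hEω => ⟨ω, hEω, hω, rfl, rfl⟩
    have hpR : 0 < P.pr (fun ω => Rel (icQ q n ω) (Tg ω)) := lt_of_lt_of_le hp0 hle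
    have hpm := ic_prod_mass P (icQ q n) Tg Rel hpR
    have h1 : (P.mi (icQ q n) Tg + Real.log 2) / P.pr (fun ω => Rel (icQ q n ω) (Tg ω)) ≤ 2 * η * n * Real.log 2 := by
      rw [div_le_iff₀ hpR]
      have h2 := (div_lt_iff₀ hden).1 (lt_of_lt_of_le hmass hle)
      linarith
    have e2 : ((2 : ℝ) ^ (-(n : ℝ))) ^ (2 * η) = Real.exp (-(2 * η * n * Real.log 2)) := by
      rw [← Real.rpow_mul (by norm_num), Real.rpow_def_of_pos (by norm_num)]
      congr 1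
      ring
    rw [e2]
    refine (Real.exp_le_exp.2 (neg_le_neg h1)).trans (hpm.trans (le_of_eq ?_))
    rw [Finset.sum_filter, ← Finset.univ_product_univ, Finset.sum_product]
    refine Finset.sum_congr rfl fun ω _ => Finset.sum_congr rfl fun ω' _ => ?_
    by_cases hR : Rel (icQ q n ω) (Tg ω')
    · have hR' : Rel (icQ q n ω) (Tg ω') := hR
      obtain ⟨ω₂, hE2, -, hq2, hs2⟩ := hR
      have g1 : GQ ω := (hGQ ω₂ ω hq2).1 (hE ω₂ hE2).1
      have g2 : IcGood P (icS t) (fun _ => ()) s η n ω' :=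
        (ic_good_congr P (icS t) (fun _ => ()) s η n (fun k hk a b hab => ic_cell_nest hk hab) (hTg _ _ hs2) rfl).1 (hE ω₂ hE2).2.1
      simp only [if_pos hR', if_pos g1, if_pos g2]
    · simp only [if_neg hR]
  · intro b
    have h := hcard b
    have h2 : ((cov b).card : ℝ) ≤ (⌈(4 * A + 6) * (2 : ℝ) ^ (u * n)⌉₊ : ℝ) := h.trans (Nat.le_ceil _)
    exact_mod_cast h2
  · intro b τ hτ
    obtain ⟨x, hx, rfl⟩ := hτ
    obtain ⟨ω₂, hE2, hp2, hq2, hs2⟩ := (Finset.mem_filter.1 hx).2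
    exact hcov x b ω₂ hE2 hp2 hq2 hs2

end Claimed.Agent.R256
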