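import Claimed.Agent.R255.Ent.Restr
import Claimed.Agent.RW.ExDefs

/-!
# Row 256, unit INC (planar incidences in the language of finite laws), file 1: definitions.      (architect helper157)

Plan of the unit: `origin/helper157:notes/R256/READ-03B.md` (report 887) and `notes/R256/INCH.md`.
A planar configuration is a finite law `P : FLaw Ω` with a POINT `q : Ω → ℝ × ℝ`, a SLOPE `t : Ω → ℝ` and side data `D : Ω → δ`.
The line through `q` with slope `t` has the INTERCEPT `icW q t = q.2 - t * q.1`.
Names = dyadic cells at the level `k` (width `2^-k`): `icQ q k`, `icX q k` (first coordinate), `icS t k`, `icU q t k`.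
All scores are conditional surprisals `P.surC` (natural logarithm) of `R255/Base/Law.lean`; one bit = `Real.log 2`.
Definitions are FROZEN.
-/

set_option autoImplicit false

namespace Claimed.Agent.R256

open Claimed.Agent.R255 Claimed.Agent.R255.FLaw

/-- the dyadic cell of `x` at the level `k` -/
noncomputable def icCell (k : ℕ) (x : ℝ) : ℤ := ⌊x * 2 ^ k⌋

variable {Ω : Type}

/-- planar cell of the point -/
noncomputable def icQ (q : Ω → ℝ × ℝ) (k : ℕ) : Ω → ℤ × ℤ := fun ω => (icCell k (q ω).1, icCell k (q ω).2)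

/-- cell of the first coordinate of the point (the COLUMN) -/
noncomputable def icX (q : Ω → ℝ × ℝ) (k : ℕ) : Ω → ℤ := fun ω => icCell k (q ω).1

/-- cell of the slope -/
noncomputable def icS (t : Ω → ℝ) (k : ℕ) : Ω → ℤ := fun ω => icCell k (t ω)

/-- the intercept of the line through `q` with the slope `t` -/
def icW (q : Ω → ℝ × ℝ) (t : Ω → ℝ) : Ω → ℝ := fun ω => (q ω).2 - t ω * (q ω).1

/-- cell of the intercept -/
noncomputable def icU (q : Ω → ℝ × ℝ) (t : Ω → ℝ) (k : ℕ) : Ω → ℤ := fun ω => icCell k (icW q t ω)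

/-- bounded chart -/
def IcBd (A : ℝ) (q : Ω → ℝ × ℝ) (t : Ω → ℝ) : Prop := ∀ ω, |(q ω).1| ≤ A ∧ |(q ω).2| ≤ A ∧ |t ω| ≤ A

/-- `ω` is a Frostman point of exponent `e` (loss `η n` bits) for the nested names `X k`, `k ≤ n`, given `D` -/
def IcGood [Fintype Ω] {α δ : Type} (P : FLaw Ω) (X : ℕ → Ω → α) (D : Ω → δ) (e η : ℝ) (n : ℕ) (ω : Ω) : Prop :=
  ∀ k ≤ n, (e * k - η * n) * Real.log 2 ≤ P.surC (X k) D ω

end Claimed.Agent.R256
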