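import Claimed.Agent.R256.Inc.Core

/-!
# Row 256, unit INC, file 3: uniform SABC and the WINDOW LEMMA (WL of `origin/helper38:notes/R256/INCminus_FP.md`, sec. 2).      (architect helper157)

`ic_coreWU`: the constant `χ` of `ic_coreW` can be chosen uniformly for `σ ∈ [0, min 1 (β+γ) - ξ]`.
  Compactness of the interval exactly as in `RW.ex_W2`: if `(χ₀, n₀)` are the data of `σ₀` and `|σ - σ₀| < χ₀/2`, the event at `(σ, χ₀/2)` is contained in the event at `(σ₀, χ₀)`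
  (`IcGood` is monotone in the tolerance; `σ - χ₀/2 ≥ σ₀ - χ₀`; `σ + χ₀/2 ≤ σ₀ + χ₀`); finite subcover; `χ = min χ₀/2`; the event and the bound are monotone in `χ`.
`ic_wl`: the intercept given the tag has score `≥ min (score of the cell in its column + χ, thr - ξ) - ε`.
  Net `σ_i = i ε`, `i ≤ 1/ε`: for `ω` in the bad event let `σ_i ≤ min (s, thr-ξ) < σ_i + ε`, `s = surC (icQ q n) (icX q n, D) / (n log 2) ≥ 0`; then `ω` lies in the event of `ic_coreWU` at `σ_i`,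
  because `min (s+χ, thr-ξ) - ε ≤ min (s, thr-ξ) + χ - ε < σ_i + χ`.  Union bound over `≤ 1/ε + 2` values of `i`.
-/

set_option autoImplicit false

namespace Claimed.Agent.R256

open Claimed.Agent.R255 Claimed.Agent.R255.FLaw
open Classical

/-- `IcGood` is monotone in the tolerance -/
theorem ic_aux_good_mono {Ω : Type} [Fintype Ω] {α δ : Type} (P : FLaw Ω) (X : ℕ → Ω → α) (D : Ω → δ) (e : ℝ) {η η' : ℝ}
    (h : η ≤ η') (n : ℕ) {ω : Ω} (hg : IcGood P X D e η n ω) : IcGood P X D e η' n ω := by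
  intro k hk
  refine le_trans ?_ (hg k hk)
  refine mul_le_mul_of_nonneg_right ?_ (Real.log_pos one_lt_two).le
  have : η * (n : ℝ) ≤ η' * n := mul_le_mul_of_nonneg_right h (Nat.cast_nonneg _)
  linarith

/-- uniform SABC -/
theorem ic_coreWU (β γ ξ A : ℝ) (hβ : 0 < β) (hγ : 0 < γ) (hξ : 0 < ξ) (hA : 1 ≤ A) :
    ∃ χ : ℝ, 0 < χ ∧ ∃ n₁ : ℕ, ∀ n : ℕ, n₁ ≤ n → ∀ σ : ℝ, 0 ≤ σ → σ ≤ min 1 (β + γ) - ξ →
      ∀ (Ω δ β' : Type) [Fintype Ω] (P : FLaw Ω) (q : Ω → ℝ × ℝ) (t : Ω → ℝ)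
      (D : Ω → δ) (Tg : Ω → β'), IcBd A q t → (∀ ω ω', Tg ω = Tg ω' → icS t n ω = icS t n ω') →
      P.pr (fun ω => IcGood P (icX q) D β χ n ω ∧ IcGood P (icS t) D γ χ n ω ∧
          (σ - χ) * n * Real.log 2 ≤ P.surC (icQ q n) (pair (icX q n) D) ω ∧
          P.surC (icU q t n) (pair Tg D) ω < (σ + χ) * n * Real.log 2)
        ≤ (P.miC (icQ q n) Tg D + Real.log 2) / (χ * n * Real.log 2) := by
  have hl2 : 0 < Real.log 2 := Real.log_pos one_lt_two
  have H : ∀ v : ℝ, ∃ (χ : ℝ) (n₁ : ℕ), 0 < χ ∧ (0 ≤ v → v ≤ min 1 (β + γ) - ξ → ∀ n : ℕ, n₁ ≤ n →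
      ∀ (Ω δ β' : Type) [Fintype Ω] (P : FLaw Ω) (q : Ω → ℝ × ℝ) (t : Ω → ℝ)
      (D : Ω → δ) (Tg : Ω → β'), IcBd A q t → (∀ ω ω', Tg ω = Tg ω' → icS t n ω = icS t n ω') →
      P.pr (fun ω => IcGood P (icX q) D β χ n ω ∧ IcGood P (icS t) D γ χ n ω ∧
          (v - χ) * n * Real.log 2 ≤ P.surC (icQ q n) (pair (icX q n) D) ω ∧
          P.surC (icU q t n) (pair Tg D) ω < (v + χ) * n * Real.log 2)
        ≤ (P.miC (icQ q n) Tg D + Real.log 2) / (χ * n * Real.log 2)) := by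
    intro v
    by_cases hv : 0 ≤ v ∧ v ≤ min 1 (β + γ) - ξ
    · obtain ⟨χ, hχ, n₁, h⟩ := ic_coreW β γ v A hβ hγ hv.1 (by linarith [hv.2]) hA
      exact ⟨χ, n₁, hχ, fun _ _ => h⟩
    · exact ⟨1, 0, one_pos, fun h1 h2 => absurd ⟨h1, h2⟩ hv⟩
  choose χf nf hχ hmain using H
  obtain ⟨s, hs, hcover⟩ := (isCompact_Icc (a := (0 : ℝ)) (b := min 1 (β + γ) - ξ)).elim_nhds_subcover
    (fun v => Set.Ioo (v - χf v / 2) (v + χf v / 2))
    (fun v _ => Ioo_mem_nhds (by linarith [hχ v]) (by linarith [hχ v]))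
  obtain ⟨χ, hχ0, hχs⟩ := Claimed.Agent.RW.ex_pos_lb s (fun v => χf v / 2) (fun v => by linarith [hχ v])
  refine ⟨χ, hχ0, max (s.sup nf) 1, fun n hn σ hσ0 hσ1 Ω δ β' _ P q t D Tg hbd hTg => ?_⟩
  have hn0 : (0 : ℝ) < n := by
    have : 0 < n := lt_of_lt_of_le one_pos ((le_max_right _ _).trans hn)
    exact_mod_cast this
  have hmem := hcover (show σ ∈ Set.Icc (0 : ℝ) (min 1 (β + γ) - ξ) from ⟨hσ0, hσ1⟩)
  simp only [Set.mem_iUnion, Set.mem_Ioo, exists_prop] at hmem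
  obtain ⟨v, hvs, hv1, hv2⟩ := hmem
  have hvI := hs v hvs
  have hχv : χ ≤ χf v / 2 := hχs v hvs
  have hχv' : χ ≤ χf v := by linarith [hχ v]
  have hnv : nf v ≤ n := ((Finset.le_sup hvs).trans (le_max_left _ _)).trans hn
  have h := hmain v hvI.1 hvI.2 n hnv Ω δ β' P q t D Tg hbd hTg
  have hc : 0 < (n : ℝ) * Real.log 2 := mul_pos hn0 hl2
  refine le_trans (ent_pr_mono P fun ω _ hω => ?_) (h.trans ?_)
  · obtain ⟨g1, g2, g3, g4⟩ := hω
    refine ⟨ic_aux_good_mono P _ D β hχv' n g1, ic_aux_good_mono P _ D γ hχv' n g2, le_trans ?_ g3, lt_of_lt_of_le g4 ?_⟩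
    · rw [mul_assoc, mul_assoc]
      exact mul_le_mul_of_nonneg_right (by linarith) hc.le
    · rw [mul_assoc, mul_assoc]
      exact mul_le_mul_of_nonneg_right (by linarith) hc.le
  · have hnum : 0 ≤ P.miC (icQ q n) Tg D + Real.log 2 := add_nonneg (ent_miC_nonneg P _ _ _) hl2.le
    refine div_le_div_of_nonneg_left hnum (by positivity) ?_
    rw [mul_assoc, mul_assoc]
    exact mul_le_mul_of_nonneg_right hχv' hc.le

/-- **Window lemma.** -/
theorem ic_wl (β γ ξ A : ℝ) (hβ : 0 < β) (hγ : 0 < γ) (hξ : 0 < ξ) (hA : 1 ≤ A) :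
    ∃ χ : ℝ, 0 < χ ∧ ∃ n₁ : ℕ, ∀ n : ℕ, n₁ ≤ n → ∀ ε : ℝ, 0 < ε →
      ∀ (Ω δ β' : Type) [Fintype Ω] (P : FLaw Ω) (q : Ω → ℝ × ℝ) (t : Ω → ℝ)
      (D : Ω → δ) (Tg : Ω → β'), IcBd A q t → (∀ ω ω', Tg ω = Tg ω' → icS t n ω = icS t n ω') →
      P.pr (fun ω => IcGood P (icX q) D β χ n ω ∧ IcGood P (icS t) D γ χ n ω ∧
          P.surC (icU q t n) (pair Tg D) ω <
            min (P.surC (icQ q n) (pair (icX q n) D) ω + χ * n * Real.log 2) ((min 1 (β + γ) - ξ) * n * Real.log 2)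
              - ε * n * Real.log 2)
        ≤ (1 / ε + 2) * ((P.miC (icQ q n) Tg D + Real.log 2) / (χ * n * Real.log 2)) := by
  have hl2 : 0 < Real.log 2 := Real.log_pos one_lt_two
  obtain ⟨χ, hχ, n₁, H⟩ := ic_coreWU β γ ξ A hβ hγ hξ hA
  refine ⟨χ, hχ, max n₁ 1, fun n hn ε hε Ω δ β' _ P q t D Tg hbd hTg => ?_⟩
  have hn0 : (0 : ℝ) < n := by
    have : 0 < n := lt_of_lt_of_le one_pos ((le_max_right _ _).trans hn)
    exact_mod_cast this
  have hc : 0 < (n : ℝ) * Real.log 2 := mul_pos hn0 hl2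
  set c : ℝ := (n : ℝ) * Real.log 2 with hcdef
  set thr : ℝ := min 1 (β + γ) - ξ with hthr
  have hthr1 : thr ≤ 1 := by
    have := min_le_left 1 (β + γ)
    linarith
  set B : ℝ := (P.miC (icQ q n) Tg D + Real.log 2) / (χ * n * Real.log 2) with hB
  have hB0 : 0 ≤ B := div_nonneg (add_nonneg (ent_miC_nonneg P _ _ _) hl2.le) (by positivity)
  -- the events of the net
  set Ev : ℕ → Ω → Prop := fun i ω => (i : ℝ) * ε ≤ thr ∧ (IcGood P (icX q) D β χ n ω ∧ IcGood P (icS t) D γ χ n ω ∧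
          ((i : ℝ) * ε - χ) * n * Real.log 2 ≤ P.surC (icQ q n) (pair (icX q n) D) ω ∧
          P.surC (icU q t n) (pair Tg D) ω < ((i : ℝ) * ε + χ) * n * Real.log 2) with hEv
  have hEvB : ∀ i, P.pr (Ev i) ≤ B := by
    intro i
    by_cases hi : (i : ℝ) * ε ≤ thr
    · refine le_trans (ent_pr_mono P fun ω _ hω => hω.2)
        (H n ((le_max_left _ _).trans hn) ((i : ℝ) * ε) (by positivity) hi Ω δ β' P q t D Tg hbd hTg)
    · rw [ent_pr_eq_zero P fun ω _ hω => hi hω.1]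
      exact hB0
  have hsub : P.pr (fun ω => IcGood P (icX q) D β χ n ω ∧ IcGood P (icS t) D γ χ n ω ∧
          P.surC (icU q t n) (pair Tg D) ω <
            min (P.surC (icQ q n) (pair (icX q n) D) ω + χ * n * Real.log 2) (thr * n * Real.log 2)
              - ε * n * Real.log 2) ≤ P.pr (fun ω => ∃ i ∈ Finset.range (⌊1 / ε⌋₊ + 1), Ev i ω) := by
    refine ent_pr_mono P fun ω hω hbad => ?_
    obtain ⟨g1, g2, g3⟩ := hbad
    have hs0 := ent_surC_nonneg P (icQ q n) (pair (icX q n) D) hω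
    have hu0 := ent_surC_nonneg P (icU q t n) (pair Tg D) hω
    set s' : ℝ := P.surC (icQ q n) (pair (icX q n) D) ω with hs'
    have e1 : χ * n * Real.log 2 = χ * c := by rw [hcdef]; ring
    have e2 : thr * n * Real.log 2 = thr * c := by rw [hcdef]; ring
    have e3 : ε * n * Real.log 2 = ε * c := by rw [hcdef]; ring
    rw [e1, e2, e3] at g3
    have hεc : 0 < ε * c := mul_pos hε hc
    have hthr0 : 0 ≤ thr * c := by
      have := min_le_right (s' + χ * c) (thr * c)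
      linarith
    set m : ℝ := min s' (thr * c) with hm
    have hm0 : 0 ≤ m := le_min hs0 hthr0
    have hfl1 : ((⌊m / (ε * c)⌋₊ : ℕ) : ℝ) ≤ m / (ε * c) := Nat.floor_le (by positivity)
    have hfl2 : m / (ε * c) < ((⌊m / (ε * c)⌋₊ : ℕ) : ℝ) + 1 := Nat.lt_floor_add_one _
    rw [le_div_iff₀ hεc] at hfl1
    rw [div_lt_iff₀ hεc] at hfl2
    set i : ℕ := ⌊m / (ε * c)⌋₊ with hi
    have hmle : m ≤ thr * c := min_le_right _ _
    have hmle' : m ≤ s' := min_le_left _ _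
    have hithr : (i : ℝ) * ε ≤ thr := by
      have h1 : ((i : ℝ) * ε) * c ≤ thr * c := by nlinarith
      exact le_of_mul_le_mul_right h1 hc
    refine ⟨i, Finset.mem_range.2 (Nat.lt_succ_of_le ?_), hithr, g1, g2, ?_, ?_⟩
    · refine Nat.floor_le_floor ?_
      rw [div_le_div_iff₀ hεc hε]
      nlinarith
    · have e4 : ((i : ℝ) * ε - χ) * n * Real.log 2 = (i : ℝ) * (ε * c) - χ * c := by rw [hcdef]; ring
      rw [e4]
      have : 0 ≤ χ * c := by positivity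
      linarith
    · have e5 : ((i : ℝ) * ε + χ) * n * Real.log 2 = (i : ℝ) * (ε * c) + χ * c := by rw [hcdef]; ring
      rw [e5]
      have h6 : min (s' + χ * c) (thr * c) ≤ m + χ * c := by
        have hχc : 0 ≤ χ * c := by positivity
        rcases le_total s' (thr * c) with h | h
        · rw [hm, min_eq_left h]; exact min_le_left _ _
        · rw [hm, min_eq_right h]; exact (min_le_right _ _).trans (by linarith)
      linarith
  refine hsub.trans ((ent_pr_exists_le P _ _).trans ?_)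
  refine (Finset.sum_le_sum fun i _ => hEvB i).trans ?_
  rw [Finset.sum_const, Finset.card_range, nsmul_eq_mul]
  refine mul_le_mul_of_nonneg_right ?_ hB0
  have := Nat.floor_le (show (0 : ℝ) ≤ 1 / ε by positivity)
  push_cast
  linarith

end Claimed.Agent.R256
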